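import Vale.Agent.P095.All.Defs

/-!
# P095 row element for amenable groups: letters seen by a trace

With letters of trace almost `b₀` in auxiliary banks, the averaged error `D` of the corrected means is
small in every trace relative to a source commuting with the banks.
-/

namespace Vale.Agent.P095.All.RowMat

open Vale.Agent.P101.KR Vale.Agent.P095.Amen Finset
open scoped ComplexConjugate ComplexOrder

noncomputable section

/-- The averaged error of means corrected by the letters. -/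
def letterErr {F A : Type} [CStarAlgebra F] [CStarAlgebra A] {n : ℕ} (μ : Fin n → A →⋆ₐ[ℂ] F)
    (a : A) (b₀ : ℝ) (z : Fin n → F) : F :=
  (n : ℝ)⁻¹ • ∑ i, (b₀⁻¹ • μ i a - 1) * z i

/-- A positive tracial functional. -/
structure PosTrace {B : Type} [CStarAlgebra B] (τ : B →ₗ[ℂ] ℂ) : Prop where
  nonneg : ∀ x, 0 ≤ (τ (star x * x)).re
  real : ∀ x, (τ (star x * x)).im = 0
  comm : ∀ x y, τ (x * y) = τ (y * x)

theorem norm_one_le {B : Type} [CStarAlgebra B] : ‖(1 : B)‖ ≤ 1 := by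
  rcases subsingleton_or_nontrivial B with h | h
  · rw [Subsingleton.elim (1 : B) 0, norm_zero]; exact zero_le_one
  · exact CStarRing.norm_one.le

namespace PosTrace

variable {B : Type} [CStarAlgebra B] {τ : B →ₗ[ℂ] ℂ} (h : PosTrace τ)
include h

theorem conj_le {M : B} (hM : IsSelfAdjoint M) (X : B) :
    |(τ (star X * M * X)).re| ≤ ‖M‖ * (τ (star X * X)).re := by
  let := CStarAlgebra.spectralOrder B
  have := CStarAlgebra.spectralOrderedRing B
  have key : ∀ N : B, IsSelfAdjoint N → (τ (star X * N * X)).re ≤ ‖N‖ * (τ (star X * X)).re := by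
    intro N hN
    obtain ⟨c, hc⟩ := CStarAlgebra.nonneg_iff_eq_star_mul_self.1
      (sub_nonneg.2 hN.le_algebraMap_norm_self)
    have e : star (c * X) * (c * X) = ‖N‖ • (star X * X) - star X * N * X := by
      rw [star_mul, mul_assoc, ← mul_assoc (star c), ← hc, sub_mul, mul_sub, Algebra.algebraMap_eq_smul_one,
        smul_one_mul, mul_smul_comm, mul_assoc]
    have h0 := h.nonneg (c * X)
    rw [e, map_sub, LinearMap.map_smul_of_tower, Complex.sub_re, Complex.smul_re, smul_eq_mul] at h0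
    linarith
  rw [abs_le]
  refine ⟨?_, key M hM⟩
  have h1 := key (-M) hM.neg
  rw [mul_neg, neg_mul, map_neg, Complex.neg_re, norm_neg] at h1
  linarith

omit h in
/-- Compression by `V` of the pull back along `μ`. -/
def pull {A : Type} [CStarAlgebra A] (τ : B →ₗ[ℂ] ℂ) (μ : A →⋆ₐ[ℂ] B) (V : B) : A →ₗ[ℂ] ℂ where
  toFun x := τ (star V * μ x * V)
  map_add' x y := by rw [map_add, mul_add, add_mul, map_add]
  map_smul' c x := by rw [map_smul, mul_smul_comm, smul_mul_assoc, map_smul]; rfl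

theorem pull_posTrace {A : Type} [CStarAlgebra A] (μ : A →⋆ₐ[ℂ] B) {V : B}
    (hV : ∀ x, Commute V (μ x)) : PosTrace (pull τ μ V) := by
  have hV' : ∀ x, Commute (star V) (μ x) := fun x => by
    have := (hV (star x)).star_star
    rwa [map_star, star_star] at this
  have e : ∀ x : A, star V * μ (star x * x) * V = star (μ x * V) * (μ x * V) := fun x => by
    rw [map_mul, map_star, star_mul]; simp only [mul_assoc]
  refine ⟨fun x => ?_, fun x => ?_, fun x y => ?_⟩
  · show 0 ≤ (τ (star V * μ (star x * x) * V)).re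
    rw [e]; exact h.nonneg _
  · show (τ (star V * μ (star x * x) * V)).im = 0
    rw [e]; exact h.real _
  · show τ (star V * μ (x * y) * V) = τ (star V * μ (y * x) * V)
    rw [map_mul μ x y, map_mul μ y x]
    calc τ (star V * (μ x * μ y) * V)
        = τ (μ x * (star V * μ y * V)) := by rw [← mul_assoc (star V), (hV' x).eq]; simp only [mul_assoc]
      _ = τ ((star V * μ y * V) * μ x) := h.comm _ _
      _ = τ (star V * (μ y * μ x) * V) := by rw [mul_assoc, (hV x).eq]; simp only [mul_assoc]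

theorem norm_le (x : B) : ‖τ x‖ ≤ ‖x‖ * (τ 1).re := by
  have hre : ∀ y : B, τ (star y) = conj (τ y) := fun y => by
    have h1 := h.real (1 + y)
    have h2 := h.real (1 + Complex.I • y)
    have hy := h.real y
    have h11 := h.real 1
    simp only [star_add, star_one, add_mul, mul_add, one_mul, mul_one, star_smul, smul_mul_assoc,
      mul_smul_comm, map_add, map_smul, smul_eq_mul, Complex.star_def, Complex.conj_I, Complex.add_im,
      Complex.mul_im, Complex.mul_re, Complex.neg_re, Complex.neg_im, Complex.I_re, Complex.I_im] at h1 h2 h11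
    refine Complex.ext ?_ ?_
    · rw [Complex.conj_re]; ring_nf at h2; linarith
    · rw [Complex.conj_im]; linarith
  have h1 : 0 ≤ (τ 1).re := by simpa using h.nonneg 1
  rcases eq_or_ne (τ x) 0 with h0 | h0
  · rw [h0, norm_zero]; exact mul_nonneg (norm_nonneg x) h1
  · set c : ℂ := conj (τ x) / (‖τ x‖ : ℂ) with hc
    have hn : ‖c‖ = 1 := by
      rw [hc, norm_div, Complex.norm_conj, Complex.norm_real, Real.norm_of_nonneg (norm_nonneg _),
        div_self (norm_ne_zero_iff.2 h0)]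
    have hcx : τ (c • x) = (‖τ x‖ : ℂ) := by
      rw [map_smul, smul_eq_mul, hc, div_mul_eq_mul_div, Complex.conj_mul', div_eq_iff]
      · exact sq _
      · exact_mod_cast norm_ne_zero_iff.2 h0
    set M : B := (2 : ℝ)⁻¹ • (c • x + star (c • x))
    have hMτ : (τ (star 1 * M * 1)).re = ‖τ x‖ := by
      rw [star_one, one_mul, mul_one, LinearMap.map_smul_of_tower, map_add, hre, hcx, Complex.smul_re,
        Complex.add_re, Complex.conj_re, Complex.ofReal_re, smul_eq_mul]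
      ring
    have hMn : ‖M‖ ≤ ‖x‖ := by
      rw [norm_smul, Real.norm_of_nonneg (by norm_num : (0 : ℝ) ≤ 2⁻¹)]
      have : ‖c • x + star (c • x)‖ ≤ ‖c • x‖ + ‖c • x‖ := (norm_add_le _ _).trans (by rw [norm_star])
      rw [norm_smul, hn, one_mul] at this
      linarith
    have hM : IsSelfAdjoint M := by
      show star M = M
      simp only [M, star_smul, star_add, star_star, star_trivial, add_comm]
    calc ‖τ x‖ = (τ (star 1 * M * 1)).re := hMτ.symm
      _ ≤ ‖M‖ * (τ (star 1 * 1)).re := (le_abs_self _).trans (h.conj_le hM 1)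
      _ ≤ ‖x‖ * (τ 1).re := by
          rw [star_one, one_mul]; exact mul_le_mul_of_nonneg_right hMn h1

end PosTrace

section core

variable {B A : Type} [CStarAlgebra B] [CStarAlgebra A] {n : ℕ} {τ : B →ₗ[ℂ] ℂ}
  {μ : Fin n → A →⋆ₐ[ℂ] B} {a q : A} {b₀ θ : ℝ}

/-- The letter condition read in `B`. -/
theorem mass_near (h : PosTrace τ)
    (hθ : ∀ φ : A →ₗ[ℂ] ℂ, PosTrace φ → φ 1 = 1 → (∀ x, ‖φ x‖ ≤ ‖x‖) → |(φ a).re - b₀| ≤ θ)
    (i : Fin n) {V : B} (hV : ∀ x, Commute V (μ i x)) :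
    |(τ (star V * μ i a * V)).re - b₀ * (τ (star V * V)).re| ≤ θ * (τ (star V * V)).re := by
  have hφ := h.pull_posTrace (μ i) hV
  set φ := PosTrace.pull τ (μ i) V with hφdef
  set T := (τ (star V * V)).re with hT
  have h1 : φ 1 = (T : ℂ) := by
    show τ (star V * μ i 1 * V) = _
    rw [map_one, mul_one]
    exact Complex.ext rfl (h.real V)
  rcases (h.nonneg V).eq_or_lt' with h0 | h0
  · have hb := hφ.norm_le a
    rw [h1, Complex.ofReal_re, hT, h0, mul_zero] at hb
    have e : (τ (star V * μ i a * V)) = 0 := norm_le_zero_iff.1 hb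
    rw [e, hT, h0, Complex.zero_re]; simp
  · have hψ : PosTrace ((T : ℂ)⁻¹ • φ) := by
      refine ⟨fun x => ?_, fun x => ?_, fun x y => congrArg ((T : ℂ)⁻¹ • ·) (hφ.comm x y)⟩
      · simp only [LinearMap.smul_apply, smul_eq_mul, ← Complex.ofReal_inv, Complex.re_ofReal_mul]
        exact mul_nonneg (inv_nonneg.2 h0.le) (hφ.nonneg x)
      · simp only [LinearMap.smul_apply, smul_eq_mul, ← Complex.ofReal_inv, Complex.im_ofReal_mul]
        rw [hφ.real x, mul_zero]
    have hT0 : (T : ℂ) ≠ 0 := Complex.ofReal_ne_zero.2 h0.ne'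
    have hψ1 : ((T : ℂ)⁻¹ • φ) 1 = 1 := by
      rw [LinearMap.smul_apply, smul_eq_mul, h1, inv_mul_cancel₀ hT0]
    have := hθ _ hψ hψ1 fun x => (hψ.norm_le x).trans_eq (by rw [hψ1, Complex.one_re, mul_one])
    rw [LinearMap.smul_apply, smul_eq_mul, ← Complex.ofReal_inv, Complex.re_ofReal_mul] at this
    change |T⁻¹ * (τ (star V * μ i a * V)).re - b₀| ≤ θ at this
    have hT' : T ≠ 0 := h0.ne'
    rw [show (τ (star V * μ i a * V)).re - b₀ * T = (T⁻¹ * (τ (star V * μ i a * V)).re - b₀) * T by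
      field_simp, abs_mul, abs_of_pos (show (0 : ℝ) < T from h0)]
    exact mul_le_mul_of_nonneg_right this h0.le

/-- Two different banks. -/
theorem pair_bound (h : PosTrace τ) (hμ : ∀ i j, i ≠ j → ∀ x y, Commute (μ i x) (μ j y))
    (hb : 0 < b₀) (hθ0 : 0 ≤ θ) (hq : star q = q) (hqa : q * q = a) (ha : ‖a‖ ≤ 1)
    (hθ : ∀ φ : A →ₗ[ℂ] ℂ, PosTrace φ → φ 1 = 1 → (∀ x, ‖φ x‖ ≤ ‖x‖) → |(φ a).re - b₀| ≤ θ)
    {i j : Fin n} (hij : i ≠ j) {V : B} (hV : ∀ k x, Commute V (μ k x)) :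
    |(τ (star V * ((b₀⁻¹ • μ i a - 1) * (b₀⁻¹ • μ j a - 1)) * V)).re|
      ≤ (b₀⁻¹ ^ 2 + b₀⁻¹) * θ * (τ (star V * V)).re := by
  set T := (τ (star V * V)).re with hT
  set Ti := (τ (star V * μ i a * V)).re with hTi
  set Tj := (τ (star V * μ j a * V)).re with hTj
  set Tij := (τ (star V * (μ i a * μ j a) * V)).re with hTij
  have e1 : (τ (star V * ((b₀⁻¹ • μ i a - 1) * (b₀⁻¹ • μ j a - 1)) * V)).re
      = b₀⁻¹ ^ 2 * Tij - b₀⁻¹ * Ti - b₀⁻¹ * Tj + T := by
    simp only [sub_mul, mul_sub, mul_one, one_mul, smul_mul_assoc, mul_smul_comm, smul_sub, map_sub,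
      LinearMap.map_smul_of_tower, Complex.sub_re, Complex.smul_re, smul_eq_mul,
      hT, hTi, hTj, hTij]
    ring
  set W := μ j q * V with hW
  have hWW : star W * W = star V * μ j a * V := by
    rw [hW, star_mul, ← map_star, hq, mul_assoc, ← mul_assoc (μ j q), ← map_mul, hqa, mul_assoc]
  have hWa : star W * μ i a * W = star V * (μ i a * μ j a) * V := by
    rw [hW, star_mul, ← map_star, hq, ← hqa, map_mul (μ j) q q, ← mul_assoc (μ i (q * q))]
    simp only [mul_assoc]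
    rw [← mul_assoc (μ j q) (μ i (q * q)), ← (hμ i j hij (q * q) q).eq, mul_assoc]
  have hWc : ∀ x, Commute W (μ i x) := fun x => (hμ j i hij.symm q x).mul_left (hV i x)
  have h2 := mass_near h hθ i hWc
  rw [hWa, hWW, ← hTj, ← hTij] at h2
  have hsa : IsSelfAdjoint (μ j a) := by
    show star (μ j a) = μ j a
    rw [← map_star, ← hqa, star_mul, hq]
  have h3 : |Tj| ≤ T := (h.conj_le hsa V).trans
    (mul_le_of_le_one_left (h.nonneg V) ((NonUnitalStarAlgHom.norm_apply_le (μ j) a).trans ha))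
  have h4 := mass_near h hθ i (hV i)
  rw [← hTi, ← hT] at h4
  rw [e1, show b₀⁻¹ ^ 2 * Tij - b₀⁻¹ * Ti - b₀⁻¹ * Tj + T
    = b₀⁻¹ ^ 2 * (Tij - b₀ * Tj) - b₀⁻¹ * (Ti - b₀ * T) by field_simp; ring]
  refine (abs_sub _ _).trans ?_
  rw [abs_mul, abs_mul, abs_of_pos (inv_pos.2 hb), abs_of_nonneg (sq_nonneg b₀⁻¹)]
  calc b₀⁻¹ ^ 2 * |Tij - b₀ * Tj| + b₀⁻¹ * |Ti - b₀ * T|
      ≤ b₀⁻¹ ^ 2 * (θ * T) + b₀⁻¹ * (θ * T) := by
        gcongr
        exact h2.trans (mul_le_mul_of_nonneg_left ((le_abs_self _).trans h3) hθ0)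
    _ = _ := by ring

/-- The error in a trace, relative to the source. -/
theorem trace_core (h : PosTrace τ) (hμ : ∀ i j, i ≠ j → ∀ x y, Commute (μ i x) (μ j y))
    (hb : 0 < b₀) (hθ0 : 0 ≤ θ) (hq : star q = q) (hqa : q * q = a) (ha : ‖a‖ ≤ 1)
    (hθ : ∀ φ : A →ₗ[ℂ] ℂ, PosTrace φ → φ 1 = 1 → (∀ x, ‖φ x‖ ≤ ‖x‖) → |(φ a).re - b₀| ≤ θ)
    {z : Fin n → B} (hz : ∀ i, ‖z i‖ ≤ 1) (hzc : ∀ i j x, Commute (z i) (μ j x))
    {R : B} (hR : star R = R) (hRc : ∀ j x, Commute R (μ j x)) :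
    (τ (R * star (letterErr μ a b₀ z) * letterErr μ a b₀ z * R)).re
      ≤ ((b₀⁻¹ + 1) ^ 2 / n + (b₀⁻¹ ^ 2 + b₀⁻¹) * θ) * (τ (R * R)).re := by
  set α : Fin n → B := fun i => b₀⁻¹ • μ i a - 1 with hα
  set X : Fin n → B := fun i => z i * R with hX
  set c := (b₀⁻¹ ^ 2 + b₀⁻¹) * θ with hc
  set TR := (τ (R * R)).re with hTR
  have hsaμ : ∀ i, star (μ i a) = μ i a := fun i => by rw [← map_star, ← hqa, star_mul, hq]
  have hαsa : ∀ i, star (α i) = α i := fun i => by
    simp only [hα, star_sub, star_smul, star_trivial, hsaμ, star_one]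
  have hXc : ∀ i k x, Commute (X i) (μ k x) := fun i k x => (hzc i k x).mul_left (hRc k x)
  have hTR0 : 0 ≤ TR := by
    have := h.nonneg R
    rwa [hR] at this
  have hXT : ∀ i, (τ (star (X i) * X i)).re ≤ TR := fun i => by
    have h1 := (le_abs_self _).trans (h.conj_le (IsSelfAdjoint.star_mul_self (z i)) R)
    rw [hR, CStarRing.norm_star_mul_self] at h1
    refine le_trans (le_of_eq ?_) (h1.trans (mul_le_of_le_one_left hTR0
      (mul_le_one₀ (hz i) (norm_nonneg _) (hz i))))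
    simp only [hX, star_mul, hR, mul_assoc]
  set g : Fin n → Fin n → ℝ := fun i j => (τ (star (X i) * (α i * α j) * X j)).re with hg
  have hgd : ∀ i, g i i ≤ (b₀⁻¹ + 1) ^ 2 * TR := fun i => by
    refine ((le_abs_self _).trans (h.conj_le
      (show IsSelfAdjoint (α i * α i) by show star _ = _; rw [star_mul, hαsa]) (X i))).trans ?_
    have hn : ‖α i‖ ≤ b₀⁻¹ + 1 := by
      refine (norm_sub_le _ _).trans (add_le_add ?_ norm_one_le)
      rw [norm_smul, Real.norm_of_nonneg (inv_nonneg.2 hb.le)]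
      exact mul_le_of_le_one_right (inv_nonneg.2 hb.le)
        ((NonUnitalStarAlgHom.norm_apply_le (μ i) a).trans ha)
    refine mul_le_mul ((norm_mul_le _ _).trans ?_) (hXT i) (h.nonneg _) (sq_nonneg _)
    rw [sq]
    exact mul_le_mul hn hn (norm_nonneg _) ((norm_nonneg _).trans hn)
  have hgo : ∀ i j, i ≠ j → g i j + g j i ≤ 2 * c * TR := by
    intro i j hij
    have hcomm : Commute (μ i a) (μ j a) := hμ i j hij a a
    have hαc : α j * α i = α i * α j :=
      ((((hcomm.smul_left b₀⁻¹).smul_right b₀⁻¹).sub_right (Commute.one_right _)).sub_left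
        (Commute.one_left _)).eq.symm
    have e : star (X i + X j) * (α i * α j) * (X i + X j)
        - star (X i - X j) * (α i * α j) * (X i - X j)
        = (2 : ℝ) • (star (X i) * (α i * α j) * X j + star (X j) * (α i * α j) * X i) := by
      rw [two_smul, star_add, star_sub]; noncomm_ring
    have e' : star (X i + X j) * (X i + X j) + star (X i - X j) * (X i - X j)
        = (2 : ℝ) • (star (X i) * X i + star (X j) * X j) := by
      rw [two_smul, star_add, star_sub]; noncomm_ring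
    have p1 := pair_bound h hμ hb hθ0 hq hqa ha hθ hij fun k x => (hXc i k x).add_left (hXc j k x)
    have p2 := pair_bound h hμ hb hθ0 hq hqa ha hθ hij fun k x => (hXc i k x).sub_left (hXc j k x)
    have h1 := congrArg (fun y => (τ y).re) e
    have h2 := congrArg (fun y => (τ y).re) e'
    simp only [map_sub, map_add, LinearMap.map_smul_of_tower, Complex.sub_re, Complex.add_re,
      Complex.smul_re, smul_eq_mul] at h1 h2
    simp only [hg, hαc]
    have hc0 : 0 ≤ c := mul_nonneg (by positivity) hθ0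
    obtain ⟨p1a, p1b⟩ := abs_le.1 p1
    obtain ⟨p2a, p2b⟩ := abs_le.1 p2
    simp only [← hc] at p1a p1b p2a p2b
    simp only [hα] at h1 ⊢
    nlinarith [mul_le_mul_of_nonneg_left (add_le_add (hXT i) (hXT j)) hc0]
  have hsum : ∑ i, ∑ j, g i j ≤ n * ((b₀⁻¹ + 1) ^ 2 * TR) + (n : ℝ) * n * (c * TR) := by
    have h2 : ∑ i, ∑ j, g i j = ∑ i, ∑ j, (g i j + g j i) / 2 := by
      simp only [add_div, sum_add_distrib]
      rw [sum_comm (f := fun i j => g j i / 2)]
      simp only [← sum_add_distrib, add_halves]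
    have h3 : ∀ i j, (g i j + g j i) / 2
        ≤ (if i = j then (b₀⁻¹ + 1) ^ 2 * TR else 0) + c * TR := fun i j => by
      have hc0 : 0 ≤ c * TR := mul_nonneg (mul_nonneg (by positivity) hθ0) hTR0
      split_ifs with hij
      · subst hij
        linarith [hgd i]
      · linarith [hgo i j hij]
    rw [h2]
    refine (sum_le_sum fun i _ => sum_le_sum fun j _ => h3 i j).trans_eq ?_
    simp only [sum_add_distrib, sum_ite_eq, mem_univ, if_true, sum_const, card_univ, Fintype.card_fin,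
      nsmul_eq_mul]
    ring
  have hD : letterErr μ a b₀ z * R = (n : ℝ)⁻¹ • ∑ i, α i * X i := by
    simp only [letterErr, hX, hα, smul_mul_assoc, sum_mul, mul_assoc]
  have e : R * star (letterErr μ a b₀ z) * letterErr μ a b₀ z * R
      = ((n : ℝ)⁻¹ * (n : ℝ)⁻¹) • ∑ i, ∑ j, star (X i) * (α i * α j) * X j := by
    rw [show R * star (letterErr μ a b₀ z) = star (letterErr μ a b₀ z * R) by rw [star_mul, hR],
      mul_assoc, hD, star_smul, star_trivial, smul_mul_smul_comm, star_sum, sum_mul_sum]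
    congr 1
    exact sum_congr rfl fun i _ => sum_congr rfl fun j _ => by
      rw [star_mul, hαsa]; simp only [mul_assoc]
  rw [e, LinearMap.map_smul_of_tower, map_sum, Complex.smul_re, Complex.re_sum, smul_eq_mul]
  simp only [map_sum, Complex.re_sum]
  rcases Nat.eq_zero_or_pos n with hn | hn
  · subst hn
    simp only [Nat.cast_zero, inv_zero, zero_mul, div_zero, zero_add]
    exact mul_nonneg (mul_nonneg (by positivity) hθ0) hTR0
  · have hn' : (0 : ℝ) < n := Nat.cast_pos.2 hn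
    refine (mul_le_mul_of_nonneg_left hsum (by positivity)).trans_eq ?_
    field_simp

end core

theorem exists_root {F : Type} [CStarAlgebra F] {s : Set F} {a : Cl s} (ha0 : SqLe 0 (a : F))
    (ha1 : SqLe (a : F) 1) : ∃ q : Cl s, star q = q ∧ q * q = a ∧ ‖a‖ ≤ 1 := by
  let := CStarAlgebra.spectralOrder F
  have := CStarAlgebra.spectralOrderedRing F
  let := CStarAlgebra.spectralOrder (Cl s)
  have := CStarAlgebra.spectralOrderedRing (Cl s)
  obtain ⟨c, hc⟩ := ha0
  obtain ⟨c', hc'⟩ := ha1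
  rw [sub_zero] at hc
  have h0 : (0 : F) ≤ a := hc ▸ star_mul_self_nonneg c
  have h1 : (a : F) ≤ 1 := sub_nonneg.1 (hc' ▸ star_mul_self_nonneg c')
  have hsa : IsSelfAdjoint a := Subtype.ext (IsSelfAdjoint.of_nonneg h0)
  have hspec : ∀ t ∈ spectrum ℝ a, 0 ≤ t := fun t ht => by
    rw [← spectrum.algebraMap_mem_iff ℂ, StarSubalgebra.spectrum_eq (Cl s),
      spectrum.algebraMap_mem_iff] at ht
    exact spectrum_nonneg_of_nonneg h0 ht
  refine ⟨cfc Real.sqrt a, (cfc_predicate Real.sqrt a : IsSelfAdjoint _).star_eq, ?_, ?_⟩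
  · rw [← cfc_mul _ _ a]
    exact (cfc_congr fun t ht => Real.mul_self_sqrt (hspec t ht)).trans (cfc_id' ℝ a)
  · exact (CStarAlgebra.norm_le_one_iff_of_nonneg (a : F) h0).2 h1

/-- Letters seen by a trace. -/
theorem trace_letters {F : Type} [CStarAlgebra F] {t₂ : Set F} {n : ℕ}
    (μ : Fin n → Cl t₂ →⋆ₐ[ℂ] F) (hμ : ∀ i j, i ≠ j → ∀ v w, Commute (μ i v) (μ j w))
    {a : Cl t₂} (ha0 : SqLe 0 (a : F)) (ha1 : SqLe (a : F) 1) {b₀ θ : ℝ} (hb : 0 < b₀)
    (hθ0 : 0 ≤ θ) (hθ : ∀ τ : Cl t₂ →ₗ[ℂ] ℂ, IsTrace (Cl t₂) τ → |(τ a).re - b₀| ≤ θ)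
    (z : Fin n → F) (hz : ∀ i, ‖z i‖ ≤ 1) (hzc : ∀ i j v, Commute (z i) (μ j v))
    (u : Set F) (hμu : ∀ i v, μ i v ∈ Cl u) (hzu : ∀ i, z i ∈ Cl u)
    (R : F) (hR : star R = R) (hRu : R ∈ Cl u) (hRc : ∀ i v, Commute R (μ i v))
    (τ : Cl u →ₗ[ℂ] ℂ) (hτ : IsTrace (Cl u) τ)
    (hmem : R * star (letterErr μ a b₀ z) * letterErr μ a b₀ z * R ∈ Cl u) :
    (τ ⟨R * star (letterErr μ a b₀ z) * letterErr μ a b₀ z * R, hmem⟩).re
      ≤ ((b₀⁻¹ + 1) ^ 2 / n + (b₀⁻¹ ^ 2 + b₀⁻¹) * θ) * (τ (⟨R, hRu⟩ * ⟨R, hRu⟩)).re := by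
  obtain ⟨q, hq, hqa, ha⟩ := exists_root ha0 ha1
  set μ' : Fin n → Cl t₂ →⋆ₐ[ℂ] Cl u := fun i => (μ i).codRestrict (Cl u) (hμu i)
  set z' : Fin n → Cl u := fun i => ⟨z i, hzu i⟩
  set R' : Cl u := ⟨R, hRu⟩ with hR'
  have key := trace_core (τ := τ) (μ := μ') (a := a) (q := q) (b₀ := b₀) (θ := θ)
    ⟨hτ.nonneg, hτ.real, hτ.comm⟩ (fun i j hij x y => Subtype.ext (hμ i j hij x y).eq) hb hθ0 hq hqa ha
    (fun φ hφ h1 hn => hθ φ ⟨h1, hφ.nonneg, hφ.real, hn, hφ.comm⟩)
    (z := z') hz (fun i j x => Subtype.ext (hzc i j x).eq) (R := R') (Subtype.ext hR)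
    (fun j x => Subtype.ext (hRc j x).eq)
  have e : (⟨R * star (letterErr μ a b₀ z) * letterErr μ a b₀ z * R, hmem⟩ : Cl u)
      = R' * star (letterErr μ' a b₀ z') * letterErr μ' a b₀ z' * R' := by
    have e0 : ((letterErr μ' a b₀ z' : Cl u) : F) = letterErr μ a b₀ z := by
      simp [letterErr, μ', z']
    refine Subtype.ext ?_
    simp [hR', e0]
  rw [e]
  exact key

theorem letterErr_mem {F : Type} [CStarAlgebra F] {t₂ u : Set F} {n : ℕ}
    {μ : Fin n → Cl t₂ →⋆ₐ[ℂ] F} (hμu : ∀ i v, μ i v ∈ Cl u) (a : Cl t₂) (b₀ : ℝ) {z : Fin n → F}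
    (hzu : ∀ i, z i ∈ Cl u) : letterErr μ a b₀ z ∈ Cl u := by
  have hsmul : ∀ (r : ℝ) {x : F}, x ∈ Cl u → r • x ∈ Cl u := fun r x hx => by
    rw [← Complex.coe_smul]; exact (Cl u).smul_mem hx (r : ℂ)
  exact hsmul _ (sum_mem fun i _ => mul_mem (sub_mem (hsmul _ (hμu i a)) (one_mem _)) (hzu i))

end

end Vale.Agent.P095.All.RowMat
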