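import Vale.Agent.P095.All.RowMat.Letters

/-!
# P095 row element for amenable groups: averaging over the patterns of the letters

A fixed family `v` averages the square of the error of the means to a multiple of `1 / n`: the cross
terms cancel exactly.
-/

namespace Vale.Agent.P095.All.RowMat

open Vale.Agent.P101.KR Vale.Agent.P095.Amen Finset

noncomputable section

section average

variable {F A σ : Type} [CStarAlgebra F] [CStarAlgebra A] [Fintype σ] {n : ℕ}
  {μ : Fin n → A →⋆ₐ[ℂ] F}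

theorem map_real_smul (f : A →⋆ₐ[ℂ] F) (c : ℝ) (x : A) : f (c • x) = c • f x := by
  rw [← Complex.coe_smul, map_smul, Complex.coe_smul]

theorem average_one (u : σ → A) (i : Fin n) (γ : A) {X : F} (hX : ∀ x, Commute X (μ i x)) :
    ∑ r, star (μ i (u r)) * (μ i γ * X) * μ i (u r) = μ i (∑ r, star (u r) * γ * u r) * X := by
  rw [map_sum, sum_mul]
  refine sum_congr rfl fun r _ => ?_
  rw [map_mul, map_mul, map_star, mul_assoc, mul_assoc, (hX (u r)).eq]
  simp only [mul_assoc]

/-- One family averaging every position of a set. -/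
theorem exists_average (hμ : ∀ i j, i ≠ j → ∀ x y, Commute (μ i x) (μ j y)) (u : σ → A)
    (hu : ∑ r, star (u r) * u r = 1) (s : Finset (Fin n)) :
    ∃ (ι : Type) (_ : Fintype ι) (v : ι → F),
      (∀ l X, (∀ i x, Commute X (μ i x)) → Commute X (v l)) ∧
      (∀ l, ∀ i ∉ s, ∀ x, Commute (μ i x) (v l)) ∧ ∑ l, star (v l) * v l = 1 ∧
      ∀ (α : A) (k : ℝ), ∑ r, star (u r) * α * u r = 0 →
        ∑ r, star (u r) * (α * α) * u r = k • (1 : A) →
        ∀ X : F, (∀ i x, Commute X (μ i x)) →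
          (∀ i ∈ s, ∑ l, star (v l) * (μ i α * X) * v l = 0) ∧
          (∀ i ∈ s, ∑ l, star (v l) * (μ i α * μ i α * X) * v l = k • X) ∧
          (∀ i ∈ s, ∀ j ∈ s, i ≠ j → ∑ l, star (v l) * (μ i α * μ j α * X) * v l = 0) := by
  induction s using Finset.induction_on with
  | empty =>
    exact ⟨Unit, inferInstance, fun _ => 1, fun _ X _ => Commute.one_right X,
      fun _ i _ x => Commute.one_right _, by simp, fun α k _ _ X _ => by simp⟩
  | insert i₀ s hi₀ ih =>
    obtain ⟨ι, hι, v, hvX, hvo, hv1, hv⟩ := ih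
    have hv' : ∀ l x, Commute (μ i₀ x) (star (v l)) := fun l x => by
      have := (hvo l i₀ hi₀ (star x)).star_star
      rwa [map_star, star_star] at this
    refine ⟨ι × σ, inferInstance, fun p => v p.1 * μ i₀ (u p.2), fun p X hX =>
      (hvX _ X hX).mul_right (hX _ _), fun p i hi x => (hvo _ i (fun h => hi (mem_insert_of_mem h)) x).mul_right
      (hμ i i₀ (fun h => hi (h ▸ mem_insert_self _ _)) _ _), ?_, ?_⟩
    all_goals
      have hcomb : ∀ Y : F, ∑ p : ι × σ, star (v p.1 * μ i₀ (u p.2)) * Y * (v p.1 * μ i₀ (u p.2))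
          = ∑ r, star (μ i₀ (u r)) * (∑ l, star (v l) * Y * v l) * μ i₀ (u r) := fun Y => by
        rw [Fintype.sum_prod_type, sum_comm]
        simp only [mul_sum, sum_mul, star_mul, mul_assoc]
    · have h := hcomb 1
      simp only [mul_one] at h
      rw [h, hv1]
      simp only [mul_one, ← map_star, ← map_mul, ← map_sum, hu, map_one]
    · intro α k h1 h2 X hX
      obtain ⟨e1, e2, e3⟩ := hv α k h1 h2 X hX
      have hfix : ∀ (γ : A) (Y : F), ∑ l, star (v l) * (μ i₀ γ * Y) * v l
          = μ i₀ γ * ∑ l, star (v l) * Y * v l := fun γ Y => by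
        rw [mul_sum]
        refine sum_congr rfl fun l _ => ?_
        rw [← mul_assoc (star (v l)), ← (hv' l γ).eq]
        simp only [mul_assoc]
      have hX1 : ∑ l, star (v l) * X * v l = X := by
        have hc : ∀ l, Commute X (star (v l)) := fun l => by
          have h := (hvX l (star X) fun i x => by
            have := (hX i (star x)).star_star
            rwa [map_star, star_star] at this).star_star
          rwa [star_star] at h
        calc ∑ l, star (v l) * X * v l = ∑ l, X * (star (v l) * v l) :=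
              sum_congr rfl fun l _ => by rw [← mul_assoc, (hc l).eq]
          _ = X := by rw [← mul_sum, hv1, mul_one]
      refine ⟨fun i hi => ?_, fun i hi => ?_, fun i hi j hj hij => ?_⟩ <;> rw [hcomb]
      · rcases mem_insert.1 hi with rfl | hi
        · rw [hfix, hX1, average_one u _ α (hX _), h1, map_zero, zero_mul]
        · simp [e1 i hi]
      · rcases mem_insert.1 hi with rfl | hi
        · rw [← map_mul, hfix, hX1, average_one u _ (α * α) (hX _), h2, map_real_smul,
            map_one, smul_one_mul]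
        · have h := average_one (μ := μ) u i₀ 1 (hX i₀)
          simp only [mul_one, hu, map_one, one_mul] at h
          rw [e2 i hi]
          simp only [mul_smul_comm, smul_mul_assoc, ← smul_sum, h]
      · rcases mem_insert.1 hi with rfl | his <;> rcases mem_insert.1 hj with rfl | hjs
        · exact absurd rfl hij
        · rw [mul_assoc (μ i α), hfix, e1 j hjs, mul_zero]; simp
        · rw [(hμ i j hij α α).eq, mul_assoc (μ j α), hfix, e1 i his, mul_zero]; simp
        · simp [e3 i his j hjs hij]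

end average

/-- The averages for both letters with one family. -/
theorem pattern_average {F : Type} [CStarAlgebra F] {t₂ : Set F} {n : ℕ} (hn : 0 < n)
    (μ : Fin n → Cl t₂ →⋆ₐ[ℂ] F) (hμ : ∀ i j, i ≠ j → ∀ v w, Commute (μ i v) (μ j w))
    {a b fa fb fc : Cl t₂} {b₀ : ℝ} (hb : 0 < b₀) (hb2 : b₀ ≤ 1 / 2)
    (ha0 : SqLe 0 (a : F)) (hb0 : SqLe 0 (b : F))
    (h1 : a * fa = fa) (h2 : b * fa = 0) (h3 : a * fb = 0) (h4 : b * fb = fb) (h5 : a * fc = 0)
    (h6 : b * fc = 0)
    (hfull : ∀ f ∈ ({fa, fb, fc} : Set (Cl t₂)),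
      ∃ (K : ℕ) (w : Fin K → Cl t₂), ∑ i, star (w i) * (star f * f) * w i = 1) :
    ∃ (K : ℕ) (v : Fin K → F), ∑ k, star (v k) * v k = 1 ∧
      (∀ k X, (∀ i x, Commute X (μ i x)) → Commute X (v k)) ∧
      ∀ z : Fin n → F, (∀ i, ‖z i‖ ≤ 1) → (∀ i j x, Commute (z i) (μ j x)) →
        ∀ e ∈ ({a, b} : Set (Cl t₂)),
          SqLe (∑ k, star (v k) * (star (letterErr μ e b₀ z) * letterErr μ e b₀ z) * v k)
            ((1 / ((n : ℝ) * b₀)) • (1 : F)) := by
  obtain ⟨Ka, wa, hwa⟩ := hfull fa (by simp)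
  obtain ⟨Kb, wb, hwb⟩ := hfull fb (by simp)
  obtain ⟨Kc, wc, hwc⟩ := hfull fc (by simp)
  have hb3 : 0 ≤ 1 - 2 * b₀ := by linarith
  set u : Fin Ka ⊕ Fin Kb ⊕ Fin Kc → Cl t₂ := Sum.elim (fun i => Real.sqrt b₀ • (fa * wa i))
    (Sum.elim (fun i => Real.sqrt b₀ • (fb * wb i))
      (fun i => Real.sqrt (1 - 2 * b₀) • (fc * wc i))) with hu
  have key : ∀ (c1 c2 c3 : ℝ) (γ : Cl t₂), γ * fa = c1 • fa → γ * fb = c2 • fb → γ * fc = c3 • fc →
      ∑ r, star (u r) * γ * u r
        = (b₀ * c1 + b₀ * c2 + (1 - 2 * b₀) * c3) • (1 : Cl t₂) := by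
    intro c1 c2 c3 γ g1 g2 g3
    have one_site : ∀ (q c : ℝ) (f : Cl t₂) (K : ℕ) (w : Fin K → Cl t₂), 0 ≤ q → γ * f = c • f →
        ∑ i, star (w i) * (star f * f) * w i = 1 →
        ∑ i, star (Real.sqrt q • (f * w i)) * γ * (Real.sqrt q • (f * w i)) = (q * c) • (1 : Cl t₂) := by
      intro q c f K w hq hg hw
      rw [← hw, smul_sum]
      refine sum_congr rfl fun i _ => ?_
      rw [star_smul, star_trivial, smul_mul_assoc, smul_mul_smul_comm, Real.mul_self_sqrt hq,
        mul_assoc, ← mul_assoc γ, hg, smul_mul_assoc, mul_smul_comm, smul_smul, star_mul]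
      simp only [mul_assoc]
    rw [Fintype.sum_sum_type, Fintype.sum_sum_type]
    simp only [hu, Sum.elim_inl, Sum.elim_inr]
    rw [one_site b₀ c1 fa Ka wa hb.le g1 hwa, one_site b₀ c2 fb Kb wb hb.le g2 hwb,
      one_site _ c3 fc Kc wc hb3 g3 hwc, add_smul, add_smul, add_assoc]
  have hu1 : ∑ r, star (u r) * u r = 1 := by
    have h := key 1 1 1 1 (by simp) (by simp) (by simp)
    simp only [mul_one] at h
    rw [h, show b₀ + b₀ + (1 - 2 * b₀) = 1 by ring, one_smul]
  obtain ⟨ι, hι, v, hvX, -, hv1, hv⟩ := exists_average hμ u hu1 univ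
  let e := Fintype.equivFin ι
  refine ⟨Fintype.card ι, fun k => v (e.symm k), ?_, fun k => hvX _, ?_⟩
  · exact (e.symm.sum_comp fun l => star (v l) * v l).trans hv1
  intro z hz hzc y hy
  set k := (1 - b₀) / b₀ with hk
  set α : Cl t₂ := b₀⁻¹ • y - 1 with hα
  have hsa : star (y : F) = y := by
    obtain ⟨c, hc⟩ : SqLe 0 (y : F) := by rcases hy with rfl | rfl <;> assumption
    rw [sub_zero] at hc
    rw [hc, star_mul, star_star]
  have hα' : ∀ i, μ i α = b₀⁻¹ • μ i y - 1 := fun i => by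
    rw [hα, map_sub, map_real_smul, map_one]
  have hαsa : ∀ i, star (μ i α) = μ i α := fun i => by
    rw [← map_star, hα, star_sub, star_smul, star_trivial, star_one,
      show star y = y from Subtype.ext hsa]
  have hsite : ∑ r, star (u r) * α * u r = 0 ∧ ∑ r, star (u r) * (α * α) * u r = k • (1 : Cl t₂) := by
    have g : ∀ (c : ℝ) (f : Cl t₂), y * f = c • f → α * f = (b₀⁻¹ * c - 1) • f ∧
        α * α * f = ((b₀⁻¹ * c - 1) * (b₀⁻¹ * c - 1)) • f := fun c f hf => by
      have e : α * f = (b₀⁻¹ * c - 1) • f := by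
        rw [hα, sub_mul, smul_mul_assoc, hf, one_mul, smul_smul, sub_smul, one_smul]
      exact ⟨e, by rw [mul_assoc, e, mul_smul_comm, e, smul_smul]⟩
    have hb' := hb.ne'
    rcases hy with rfl | rfl
    · have ga := g 1 fa (by rw [h1, one_smul])
      have gb := g 0 fb (by rw [h3, zero_smul])
      have gc := g 0 fc (by rw [h5, zero_smul])
      refine ⟨(key _ _ _ α ga.1 gb.1 gc.1).trans ?_, (key _ _ _ _ ga.2 gb.2 gc.2).trans ?_⟩
      · rw [show b₀ * (b₀⁻¹ * 1 - 1) + b₀ * (b₀⁻¹ * 0 - 1) + (1 - 2 * b₀) * (b₀⁻¹ * 0 - 1) = 0 by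
          field_simp; ring, zero_smul]
      · congr 1; rw [hk]; field_simp; ring
    · have ga := g 0 fa (by rw [h2, zero_smul])
      have gb := g 1 fb (by rw [h4, one_smul])
      have gc := g 0 fc (by rw [h6, zero_smul])
      refine ⟨(key _ _ _ α ga.1 gb.1 gc.1).trans ?_, (key _ _ _ _ ga.2 gb.2 gc.2).trans ?_⟩
      · rw [show b₀ * (b₀⁻¹ * 0 - 1) + b₀ * (b₀⁻¹ * 1 - 1) + (1 - 2 * b₀) * (b₀⁻¹ * 0 - 1) = 0 by
          field_simp; ring, zero_smul]
      · congr 1; rw [hk]; field_simp; ring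
  have hzc' : ∀ i j x, Commute (star (z i)) (μ j x) := fun i j x => by
    have := (hzc i j (star x)).star_star
    rwa [map_star, star_star] at this
  have hX : ∀ i j m x, Commute (star (z i) * z j) (μ m x) := fun i j m x =>
    (hzc' i m x).mul_left (hzc j m x)
  set D := letterErr μ y b₀ z with hD
  have hDD : star D * D = ((n : ℝ)⁻¹ * (n : ℝ)⁻¹) •
      ∑ i, ∑ j, μ i α * μ j α * (star (z i) * z j) := by
    rw [hD, letterErr]
    simp only [← hα']
    rw [star_smul, star_trivial, smul_mul_smul_comm, star_sum, sum_mul_sum]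
    congr 1
    refine sum_congr rfl fun i _ => sum_congr rfl fun j _ => ?_
    rw [star_mul, hαsa, mul_assoc (star (z i)), ← mul_assoc (μ i α), ← mul_assoc (star (z i)),
      ((hzc' i i α).mul_right (hzc' i j α)).eq, mul_assoc]
  have havg : ∑ l, star (v l) * (star D * D) * v l
      = ((n : ℝ)⁻¹ * (n : ℝ)⁻¹) • (k • ∑ i, star (z i) * z i) := by
    rw [hDD]
    simp only [mul_smul_comm, smul_mul_assoc, ← smul_sum, mul_sum, sum_mul]
    congr 1
    rw [sum_comm, smul_sum]
    refine sum_congr rfl fun i _ => ?_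
    rw [sum_comm, sum_eq_single i]
    · exact (hv α k hsite.1 hsite.2 _ (hX i i)).2.1 i (mem_univ _)
    · exact fun j _ hji => (hv α k hsite.1 hsite.2 _ (hX i j)).2.2 i (mem_univ _) j (mem_univ _) hji.symm
    · exact fun h => absurd (mem_univ i) h
  rw [show (∑ k, star (v (e.symm k)) * (star D * D) * v (e.symm k))
    = ∑ l, star (v l) * (star D * D) * v l from
      e.symm.sum_comp fun l => star (v l) * (star D * D) * v l, havg]
  let := CStarAlgebra.spectralOrder F
  have := CStarAlgebra.spectralOrderedRing F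
  have hn' : (0 : ℝ) < n := Nat.cast_pos.2 hn
  have hk0 : 0 ≤ k := div_nonneg (by linarith) hb.le
  have hle : ∑ i, star (z i) * z i ≤ (n : ℝ) • (1 : F) := by
    refine (sum_le_card_nsmul univ _ (1 : F) fun i _ => ?_).trans_eq (by
      rw [card_univ, Fintype.card_fin, Nat.cast_smul_eq_nsmul ℝ])
    refine (IsSelfAdjoint.star_mul_self (z i)).le_algebraMap_norm_self.trans ?_
    rw [CStarRing.norm_star_mul_self, ← map_one (algebraMap ℝ F)]
    exact algebraMap_mono F (mul_le_one₀ (hz i) (norm_nonneg _) (hz i))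
  have hfin : ((n : ℝ)⁻¹ * (n : ℝ)⁻¹) • (k • ∑ i, star (z i) * z i)
      ≤ (1 / ((n : ℝ) * b₀)) • (1 : F) := by
    refine (smul_le_smul_of_nonneg_left (smul_le_smul_of_nonneg_left hle hk0)
      (by positivity)).trans ?_
    rw [smul_smul, smul_smul]
    refine smul_le_smul_of_nonneg_right ?_ zero_le_one
    rw [hk]
    field_simp
    linarith
  obtain ⟨c, hc⟩ := CStarAlgebra.nonneg_iff_eq_star_mul_self.1 (sub_nonneg.2 hfin)
  exact ⟨c, hc⟩

end

end Vale.Agent.P095.All.RowMat
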