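import Vale.Agent.P095.All.RowMat.Commuting
import Vale.Agent.P101.KR.Omega

/-!
# P095 row element for amenable groups: almost commuting entries

A sequence of counterexamples would give exactly commuting entries in a sequence algebra.
-/

namespace Vale.Agent.P095.All.RowMat

open Matrix Finset Polynomial Filter Topology BoundedContinuousFunction
open Vale.Agent.P101.KR Vale.Agent.P095.Amen
open scoped ComplexConjugate ComplexOrder ENNReal

noncomputable section

section product

variable {E : ℕ → Type} [∀ k, CStarAlgebra (E k)] [∀ k, Nontrivial (E k)]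

instance : CStarAlgebra (lp E ∞) where

/-- A coordinate of a bounded family. -/
def coord (j : ℕ) : lp E ∞ →⋆ₐ[ℂ] E j where
  toFun x := x j
  map_one' := rfl
  map_zero' := rfl
  map_mul' _ _ := rfl
  map_add' _ _ := rfl
  commutes' _ := rfl
  map_star' _ := rfl

theorem coord_apply (j : ℕ) (x : lp E ∞) : coord j x = x j := rfl

/-- Evaluation of a bounded sequence. -/
def evalAt {A : Type} [CStarAlgebra A] (k : ℕ) : (ℕ →ᵇ A) →⋆ₐ[ℂ] A where
  toFun x := x k
  map_one' := rfl
  map_zero' := rfl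
  map_mul' _ _ := rfl
  map_add' _ _ := rfl
  commutes' _ := rfl
  map_star' _ := rfl

/-- The family cut off below `k`. -/
def tail (u : ∀ j, E j) (C : ℝ) (hu : ∀ j, ‖u j‖ ≤ C) (k : ℕ) : lp E ∞ :=
  ⟨fun j => if k ≤ j then u j else 0, by
    refine memℓp_infty ⟨max C 0, ?_⟩
    rintro _ ⟨j, rfl⟩
    show ‖if k ≤ j then u j else 0‖ ≤ _
    split_ifs
    · exact (hu j).trans (le_max_left _ _)
    · rw [norm_zero]; exact le_max_right _ _⟩

omit [∀ k, Nontrivial (E k)] in
theorem tail_apply (u : ∀ j, E j) (C : ℝ) (hu : ∀ j, ‖u j‖ ≤ C) (k j : ℕ) :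
    tail u C hu k j = if k ≤ j then u j else 0 := rfl

omit [∀ k, Nontrivial (E k)] in
theorem norm_tail_le (u : ∀ j, E j) {C : ℝ} (hC : 0 ≤ C) (hu : ∀ j, ‖u j‖ ≤ C) (k : ℕ) :
    ‖tail u C hu k‖ ≤ C := by
  refine lp.norm_le_of_forall_le hC fun j => ?_
  rw [tail_apply]
  split_ifs
  exacts [hu j, (norm_zero (E := E j)).trans_le hC]

/-- The bounded sequence of the cut off families. -/
def tails (u : ∀ j, E j) {C : ℝ} (hC : 0 ≤ C) (hu : ∀ j, ‖u j‖ ≤ C) : ℕ →ᵇ lp E ∞ :=
  BoundedContinuousFunction.ofNormedAddCommGroupDiscrete (fun k => tail u C hu k) C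
    (norm_tail_le u hC hu)

theorem tails_apply (u : ∀ j, E j) {C : ℝ} (hC : 0 ≤ C) (hu : ∀ j, ‖u j‖ ≤ C) (k : ℕ) :
    tails u hC hu k = tail u C hu k := rfl

end product

variable {ι : Type} [Fintype ι] [DecidableEq ι]

/-- Bounds, up to `η`, for entries that commute up to some `τ`. -/
theorem exists_tau {f : ℝ[X]} {N : ℕ} {a : ℕ → ℝ} {w v : ι → ℝ} {m : ℕ} {c₁ c₂ η : ℝ}
    (h1 : 0 ≤ c₁) (h2 : 0 ≤ c₂) (hη : 0 < η)
    (hscal : ∀ Z ∈ gramSet ι, ‖errOne f N a w m Z‖ ≤ c₁ ∧ ‖errDiff f N a w v m Z‖ ≤ c₂) :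
    ∃ τ : ℝ, 0 < τ ∧ ∀ (F : Type) [CStarAlgebra F] (z : ι → ι → F), NearGram τ z →
      ‖errOne f N a w m z‖ ≤ c₁ + η ∧ ‖errDiff f N a w v m z‖ ≤ c₂ + η := by
  by_contra hne
  have hbad : ∀ k : ℕ, ∃ (F : Type) (_ : CStarAlgebra F) (z : ι → ι → F),
      NearGram (1 / ((k : ℝ) + 1)) z ∧
        ¬ (‖errOne f N a w m z‖ ≤ c₁ + η ∧ ‖errDiff f N a w v m z‖ ≤ c₂ + η) := by
    intro k
    by_contra hk
    exact hne ⟨1 / ((k : ℝ) + 1), by positivity, fun F _ z hz => by
      by_contra h
      exact hk ⟨F, inferInstance, z, hz, h⟩⟩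
  choose E inst z hz hviol using hbad
  let : ∀ k, CStarAlgebra (E k) := inst
  have : ∀ k, Nontrivial (E k) := by
    intro k
    by_contra h
    rw [not_nontrivial_iff_subsingleton] at h
    have h0 : ∀ y : E k, ‖y‖ = 0 := fun y => by rw [Subsingleton.elim y 0, norm_zero]
    exact hviol k ⟨(h0 _).trans_le (by positivity), (h0 _).trans_le (by positivity)⟩
  set ω : Ultrafilter ℕ := hyperfilter ℕ with hω
  set x : ι → ι → (ℕ →ᵇ lp E ∞) := fun g h =>
    tails (fun j => z j g h) zero_le_one fun j => (hz j).norm g h with hx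
  set X : ι → ι → AOmega (lp E ∞) ω := fun g h => cls ω (x g h) with hX
  have hnear : NearGram 0 X := by
    refine ⟨fun g h => ?_, fun g h => ?_, fun g h k l => ?_, fun c => ?_⟩
    · refine le_of_tendsto' (tendsto_omegaNorm ω (x g h)) fun k => ?_
      exact norm_tail_le _ zero_le_one (fun j => (hz j).norm g h) k
    · rw [hX]
      show star (cls ω (x g h)) = cls ω (x h g)
      rw [← map_star]
      congr 1
      ext k j
      show star (if k ≤ j then z j g h else 0) = if k ≤ j then z j h g else 0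
      split_ifs
      exacts [(hz j).symm g h, star_zero _]
    · show ‖cls ω (x g h) * cls ω (x k l) - cls ω (x k l) * cls ω (x g h)‖ ≤ 0
      rw [← map_mul, ← map_mul, ← map_sub, norm_cls]
      refine le_of_eq (omegaNorm_eq (squeeze_zero (fun i => norm_nonneg _) (fun i => ?_)
        ((tendsto_one_div_add_atTop_nhds_zero_nat (𝕜 := ℝ)).mono_left Nat.hyperfilter_le_atTop)))
      refine lp.norm_le_of_forall_le (by positivity) fun j => ?_
      show ‖(if i ≤ j then z j g h else 0) * (if i ≤ j then z j k l else 0)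
        - (if i ≤ j then z j k l else 0) * (if i ≤ j then z j g h else 0)‖ ≤ _
      split_ifs with hij
      · refine ((hz j).comm g h k l).trans ?_
        gcongr
      · simp only [mul_zero, sub_zero, norm_zero]; positivity
    · have hd : ∀ j, ∃ d : E j, (∑ g, ∑ h, (conj (c g) * c h) • z j g h) = star d * d := fun j => by
        obtain ⟨d, hd⟩ := (hz j).pos c
        exact ⟨d, by rwa [sub_zero] at hd⟩
      choose d hd using hd
      set C := √(∑ g, ∑ h, ‖conj (c g) * c h‖) with hC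
      have hdC : ∀ j, ‖d j‖ ≤ C := fun j => by
        refine Real.le_sqrt_of_sq_le ?_
        rw [sq, ← CStarRing.norm_star_mul_self, ← hd j]
        refine (norm_sum_le _ _).trans (sum_le_sum fun g _ => (norm_sum_le _ _).trans
          (sum_le_sum fun h _ => ?_))
        rw [norm_smul]
        exact mul_le_of_le_one_right (norm_nonneg _) ((hz j).norm g h)
      refine ⟨cls ω (tails d (Real.sqrt_nonneg _) hdC), ?_⟩
      rw [sub_zero, hX, ← map_star, ← map_mul]
      simp only [← map_smul, ← map_sum]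
      congr 1
      refine BoundedContinuousFunction.ext fun k => ?_
      show evalAt k (∑ g, ∑ h, (conj (c g) * c h) • x g h) = _
      simp only [map_sum, map_smul]
      refine lp.ext (funext fun j => ?_)
      show coord j (∑ g, ∑ h, (conj (c g) * c h) • evalAt k (x g h)) = _
      simp only [map_sum, map_smul]
      show ∑ g, ∑ h, (conj (c g) * c h) • (if k ≤ j then z j g h else 0)
        = star (if k ≤ j then d j else 0) * (if k ≤ j then d j else 0)
      split_ifs
      · exact hd j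
      · simp
  have : Nontrivial (AOmega (lp E ∞) ω) := by
    refine ⟨1, 0, fun h => ?_⟩
    have h' : ‖cls ω (1 : ℕ →ᵇ lp E ∞)‖ = 0 := by rw [map_one, h, norm_zero]
    rw [norm_cls, omegaNorm_eq (c := (1 : ℝ)) (tendsto_const_nhds.congr fun n => by
      rw [BoundedContinuousFunction.coe_one, Pi.one_apply, norm_one])] at h'
    exact one_ne_zero h'
  obtain ⟨e1, e2⟩ := bounds_of_commuting h1 h2 hscal hnear
  have hev : ∀ k, (fun g h => coord k (evalAt k (x g h))) = z k := fun k => by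
    funext g h
    show (if k ≤ k then z k g h else 0) = z k g h
    rw [if_pos le_rfl]
  rw [hX, ← map_errOne (cls ω) f N a w m x, norm_cls] at e1
  rw [hX, ← map_errDiff (cls ω) f N a w v m x, norm_cls] at e2
  have t1 := (tendsto_omegaNorm ω (errOne f N a w m x)).eventually
    (eventually_le_nhds (lt_of_le_of_lt e1 (lt_add_of_pos_right c₁ hη)))
  have t2 := (tendsto_omegaNorm ω (errDiff f N a w v m x)).eventually
    (eventually_le_nhds (lt_of_le_of_lt e2 (lt_add_of_pos_right c₂ hη)))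
  obtain ⟨k, k1, k2⟩ := (t1.and t2).exists
  refine hviol k ⟨le_trans ?_ k1, le_trans ?_ k2⟩
  · rw [← hev k, ← map_errOne (coord k) f N a w m (fun g h => evalAt k (x g h)), ← map_errOne (evalAt k) f N a w m x,
      coord_apply]
    exact lp.norm_apply_le_norm ENNReal.top_ne_zero _ k
  · rw [← hev k, ← map_errDiff (coord k) f N a w v m (fun g h => evalAt k (x g h)),
      ← map_errDiff (evalAt k) f N a w v m x, coord_apply]
    exact lp.norm_apply_le_norm ENNReal.top_ne_zero _ k

/-- What the row element uses, for almost commuting entries. -/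
theorem exists_row_transfer (n : ℕ) {δ : ℝ} (hδ : 0 < δ) :
    ∃ (f : ℝ[X]) (N : ℕ) (a : ℕ → ℝ), (∀ r, 0 ≤ a r) ∧ ∑ r ∈ Finset.range N, a r = 1 ∧
      ∀ (ι : Type) [Fintype ι] [DecidableEq ι], Fintype.card ι ≤ n →
      ∀ w v : ι → ℝ, (∀ g, 0 ≤ w g) → ∑ g, w g = 1 → (∀ g, 0 ≤ v g) → ∑ g, v g = 1 →
      ∃ (m : ℕ) (τ : ℝ), 0 < τ ∧ ∀ (F : Type) [CStarAlgebra F] (z : ι → ι → F), NearGram τ z →
        ‖errOne f N a w m z‖ ≤ δ ∧ ‖errDiff f N a w v m z‖ ≤ ∑ g, |w g - v g| + δ := by
  obtain ⟨f, N, a, ha, ha1, hf⟩ := exists_row_data n (show 0 < δ / 4 by positivity)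
  refine ⟨f, N, a, ha, ha1, fun ι _ _ hn w v hw hw1 hv hv1 => ?_⟩
  obtain ⟨m, hm⟩ := scalar_bounds (f := f) (N := N) (a := a) (w := w) (v := v)
    (show 0 < δ / 4 by positivity)
    (fun Z hZ hd => hf ι hn Z hZ hd w v hw hw1 hv hv1) ha
  have hS : 0 ≤ ∑ g, |w g - v g| := sum_nonneg fun _ _ => abs_nonneg _
  obtain ⟨τ, hτ, h⟩ := exists_tau (by positivity) (by positivity) (show 0 < δ / 2 by positivity) hm
  refine ⟨m, τ, hτ, fun F _ z hz => ?_⟩
  obtain ⟨h1, h2⟩ := h F z hz
  constructor <;> linarith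

end

end Vale.Agent.P095.All.RowMat
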