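import Vale.Agent.P095.All.RowMat.Gram

/-!
# P095 row element for amenable groups: bounds and intertwining estimates

`Ctl D b e x x'`: both elements have norm at most `b` and `D` intertwines them up to `e`. With
`x' = x` this bounds a commutator, with `D = 1` a difference.
-/

namespace Vale.Agent.P095.All.RowMat

open Matrix Finset Polynomial
open scoped ComplexConjugate

noncomputable section

variable {F : Type} [CStarAlgebra F]

/-- Norm and intertwining bounds. -/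
structure Ctl (D : F) (b e : ℝ) (x x' : F) : Prop where
  norm : ‖x‖ ≤ b
  norm' : ‖x'‖ ≤ b
  near : ‖D * x - x' * D‖ ≤ e

namespace Ctl

variable {D x x' y y' : F} {b b' e e' : ℝ}

theorem nonneg (h : Ctl D b e x x') : 0 ≤ b ∧ 0 ≤ e :=
  ⟨(norm_nonneg _).trans h.norm, (norm_nonneg _).trans h.near⟩

theorem mono (h : Ctl D b e x x') (hb : b ≤ b') (he : e ≤ e') : Ctl D b' e' x x' :=
  ⟨h.norm.trans hb, h.norm'.trans hb, h.near.trans he⟩

theorem mul (h : Ctl D b e x x') (h' : Ctl D b' e' y y') :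
    Ctl D (b * b') (e * b' + b * e') (x * y) (x' * y') := by
  refine ⟨(norm_mul_le _ _).trans (mul_le_mul h.norm h'.norm (norm_nonneg _) h.nonneg.1),
    (norm_mul_le _ _).trans (mul_le_mul h.norm' h'.norm' (norm_nonneg _) h.nonneg.1), ?_⟩
  rw [show D * (x * y) - x' * y' * D = (D * x - x' * D) * y + x' * (D * y - y' * D) by
    noncomm_ring]
  exact (norm_add_le _ _).trans (add_le_add
    ((norm_mul_le _ _).trans (mul_le_mul h.near h'.norm (norm_nonneg _) h.nonneg.2))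
    ((norm_mul_le _ _).trans (mul_le_mul h.norm' h'.near (norm_nonneg _) h.nonneg.1)))

theorem smul (h : Ctl D b e x x') (c : ℂ) : Ctl D (‖c‖ * b) (‖c‖ * e) (c • x) (c • x') := by
  have hn : ∀ z : F, ‖z‖ ≤ b → ‖c • z‖ ≤ ‖c‖ * b := fun z hz =>
    (norm_smul_le c z).trans (mul_le_mul_of_nonneg_left hz (norm_nonneg c))
  refine ⟨hn x h.norm, hn x' h.norm', ?_⟩
  rw [mul_smul_comm, smul_mul_assoc, ← smul_sub]
  exact (norm_smul_le _ _).trans (mul_le_mul_of_nonneg_left h.near (norm_nonneg c))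

theorem sum {κ : Type} (s : Finset κ) {X X' : κ → F} {B E : κ → ℝ}
    (h : ∀ i ∈ s, Ctl D (B i) (E i) (X i) (X' i)) :
    Ctl D (∑ i ∈ s, B i) (∑ i ∈ s, E i) (∑ i ∈ s, X i) (∑ i ∈ s, X' i) := by
  refine ⟨(norm_sum_le _ _).trans (sum_le_sum fun i hi => (h i hi).norm),
    (norm_sum_le _ _).trans (sum_le_sum fun i hi => (h i hi).norm'), ?_⟩
  rw [mul_sum, sum_mul, ← sum_sub_distrib]
  exact (norm_sum_le _ _).trans (sum_le_sum fun i hi => (h i hi).near)

theorem pow_succ' (h : Ctl D b e x x') : ∀ k : ℕ,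
    Ctl D (b ^ (k + 1)) ((k + 1) * b ^ k * e) (x ^ (k + 1)) (x' ^ (k + 1))
  | 0 => by simpa using h
  | k + 1 => by
    rw [pow_succ x, pow_succ x']
    refine ((pow_succ' h k).mul h).mono (le_of_eq (pow_succ b (k + 1)).symm) (le_of_eq ?_)
    push_cast; ring

end Ctl

variable {ι : Type} [Fintype ι] [DecidableEq ι]

/-- Entrywise bounds, `k * η` for the intertwining. -/
def MCtl (D : F) (η b k : ℝ) (X X' : Matrix ι ι F) : Prop :=
  ∀ g h, Ctl D b (k * η) (X g h) (X' g h)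

theorem Ctl.const (D : F) {η : ℝ} (_hη : 0 ≤ η) {c : ℂ} {b : ℝ} (hc : ‖c‖ ≤ b) :
    Ctl D b (0 * η) (algebraMap ℂ F c) (algebraMap ℂ F c) := by
  rcases subsingleton_or_nontrivial F with hF | hF
  · have h0 : ∀ y : F, ‖y‖ = 0 := fun y => by rw [Subsingleton.elim y 0, norm_zero]
    exact ⟨(h0 _).trans_le ((norm_nonneg c).trans hc), (h0 _).trans_le ((norm_nonneg c).trans hc),
      (h0 _).trans_le (zero_mul η).ge⟩
  exact ⟨(norm_algebraMap' F c).trans_le hc, (norm_algebraMap' F c).trans_le hc, by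
    rw [← Algebra.commutes c D, sub_self, norm_zero, zero_mul]⟩

omit [DecidableEq ι] in
theorem MCtl.mul {D : F} {η b b' k k' : ℝ} {n : ℕ} (hn : Fintype.card ι ≤ n) (hη : 0 ≤ η)
    (hb : 0 ≤ b) (hb' : 0 ≤ b') (hk : 0 ≤ k) (hk' : 0 ≤ k') {X X' Y Y' : Matrix ι ι F}
    (h : MCtl D η b k X X') (h' : MCtl D η b' k' Y Y') :
    MCtl D η (n * (b * b')) (n * (k * b' + b * k')) (X * Y) (X' * Y') := by
  intro g l
  rw [mul_apply, mul_apply]
  refine (Ctl.sum univ fun j _ => (h g j).mul (h' j l)).mono ?_ ?_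
  · rw [sum_const, nsmul_eq_mul, card_univ]
    gcongr
  · rw [sum_const, nsmul_eq_mul, card_univ,
      show k * η * b' + b * (k' * η) = (k * b' + b * k') * η by ring, mul_assoc]
    gcongr

theorem exists_realEval_bound (f : ℝ[X]) (n : ℕ) {b k : ℝ} (hb : 0 ≤ b) (hk : 0 ≤ k) :
    ∃ B K : ℝ, 0 ≤ B ∧ 0 ≤ K ∧ ∀ (F : Type) [CStarAlgebra F] (ι : Type) [Fintype ι] [DecidableEq ι],
      Fintype.card ι ≤ n → ∀ (D : F) (η : ℝ), 0 ≤ η → ∀ X X' : Matrix ι ι F,
        MCtl D η b k X X' → MCtl D η B K (realEval f X) (realEval f X') := by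
  have hpow : ∀ j : ℕ, ∃ B K : ℝ, 0 ≤ B ∧ 0 ≤ K ∧
      ∀ (F : Type) [CStarAlgebra F] (ι : Type) [Fintype ι] [DecidableEq ι],
      Fintype.card ι ≤ n → ∀ (D : F) (η : ℝ), 0 ≤ η → ∀ X X' : Matrix ι ι F,
        MCtl D η b k X X' → MCtl D η B K (X ^ j) (X' ^ j) := by
    intro j
    induction j with
    | zero =>
      refine ⟨1, 0, zero_le_one, le_rfl, fun F _ ι _ _ _ D η hη X X' _ g h => ?_⟩
      rw [pow_zero, pow_zero, one_apply]
      split_ifs
      · simpa using Ctl.const D hη (c := 1) (b := 1) norm_one.le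
      · simpa using Ctl.const D hη (c := 0) (b := 1) (norm_zero.trans_le zero_le_one)
    | succ j ih =>
      obtain ⟨B, K, hB, hK, h⟩ := ih
      refine ⟨n * (B * b), n * (K * b + B * k), by positivity, by positivity,
        fun F _ ι _ _ hn D η hη X X' hX => ?_⟩
      rw [pow_succ, pow_succ]
      exact MCtl.mul hn hη hB hb hK hk (h F ι hn D η hη X X' hX) hX
  choose B K hB hK hall using hpow
  refine ⟨∑ j ∈ Finset.range (f.natDegree + 1), |f.coeff j| * B j,
    ∑ j ∈ Finset.range (f.natDegree + 1), |f.coeff j| * K j,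
    sum_nonneg fun j _ => mul_nonneg (abs_nonneg _) (hB j),
    sum_nonneg fun j _ => mul_nonneg (abs_nonneg _) (hK j),
    fun F _ ι _ _ hn D η hη X X' hX g h => ?_⟩
  have hdeg : (f.map Complex.ofRealHom).natDegree = f.natDegree :=
    natDegree_map_eq_of_injective Complex.ofReal_injective f
  rw [realEval, realEval, aeval_eq_sum_range, aeval_eq_sum_range, hdeg, Matrix.sum_apply,
    Matrix.sum_apply]
  refine (Ctl.sum _ fun j _ => ((hall j F ι hn D η hη X X' hX g h).smul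
    ((f.map Complex.ofRealHom).coeff j))).mono (le_of_eq (sum_congr rfl fun j _ => ?_))
    (le_of_eq ?_)
  · rw [coeff_map]; exact congrArg (· * B j) (Complex.norm_real _)
  · rw [sum_mul]
    refine sum_congr rfl fun j _ => ?_
    rw [coeff_map, ← mul_assoc]
    exact congrArg (· * K j * η) (Complex.norm_real _)

/-- Bounds for the kernel and the coefficients. -/
theorem exists_lip (f : ℝ[X]) (N : ℕ) (a : ℕ → ℝ) (n : ℕ) {B : ℝ} (hB : 0 ≤ B) :
    ∃ L : ℝ, 0 ≤ L ∧ ∀ (F : Type) [CStarAlgebra F] (ι : Type) [Fintype ι] [DecidableEq ι],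
      Fintype.card ι ≤ n → ∀ (D : F) (η : ℝ), 0 ≤ η → ∀ w : ι → ℝ, (∀ g, w g ≤ 1) →
      ∀ z z' : ι → ι → F, (∀ g h, Ctl D B η (z g h) (z' g h)) → ∀ g h,
        Ctl D L (L * η) (kerMat N a z g h) (kerMat N a z' g h) ∧
          Ctl D L (L * η) (coef f w (kerMat N a z) g h) (coef f w (kerMat N a z') g h) := by
  set b := ∑ j ∈ Finset.range N, ‖(a j : ℂ)‖ * B ^ (j + 1) with hb
  set k := ∑ j ∈ Finset.range N, ‖(a j : ℂ)‖ * ((j + 1) * B ^ j) with hk
  have hb0 : 0 ≤ b := sum_nonneg fun j _ => by positivity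
  have hk0 : 0 ≤ k := sum_nonneg fun j _ => by positivity
  obtain ⟨B', K', hB', hK', hev⟩ := exists_realEval_bound f n hb0 hk0
  refine ⟨b + k + B' + K', by positivity, fun F _ ι _ _ hn D η hη w hw z z' hz => ?_⟩
  have hker : MCtl D η b k (kerMat N a z) (kerMat N a z') := fun g h => by
    refine (Ctl.sum _ fun j _ => ((hz g h).pow_succ' j).smul (a j : ℂ)).mono le_rfl (le_of_eq ?_)
    rw [hk, sum_mul]
    exact sum_congr rfl fun j _ => (mul_assoc _ _ _).symm
  have hroot : ∀ g, ‖((Real.sqrt (w g) : ℝ) : ℂ)‖ ≤ 1 := fun g => by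
    rw [Complex.norm_real, Real.norm_of_nonneg (Real.sqrt_nonneg _)]
    exact (Real.sqrt_le_sqrt (hw g)).trans_eq Real.sqrt_one
  have hsand : ∀ (b k : ℝ) (X X' : Matrix ι ι F), MCtl D η b k X X' →
      MCtl D η b k (rootW F w * X * rootW F w) (rootW F w * X' * rootW F w) := by
    intro b k X X' hX g h
    rw [rootW, mul_diagonal, mul_diagonal, diagonal_mul, diagonal_mul]
    refine (((Ctl.const D hη (hroot g)).mul (hX g h)).mul (Ctl.const D hη (hroot h))).mono
      (le_of_eq ?_) (le_of_eq ?_) <;> ring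
  intro g h
  have he : ∀ x : ℝ, x ≤ b + k + B' + K' → x * η ≤ (b + k + B' + K') * η := fun x hx =>
    mul_le_mul_of_nonneg_right hx hη
  refine ⟨(hker g h).mono (by linarith) (he _ (by linarith)), ?_⟩
  rw [coef, coef]
  exact (hsand _ _ _ _ (hev F ι hn D η hη _ _ (hsand _ _ _ _ hker)) g h).mono (by linarith)
    (he _ (by linarith))

omit [DecidableEq ι] in
/-- The form, with the adjoints of the coefficients controlled separately. -/
theorem ctl_fF {D : F} {η bK bd kK kd : ℝ} {n : ℕ} (hn : Fintype.card ι ≤ n) (hη : 0 ≤ η)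
    (hbK : 0 ≤ bK) (hbd : 0 ≤ bd) (hkK : 0 ≤ kK) (hkd : 0 ≤ kd) {K K' d d' : Matrix ι ι F}
    (hK : MCtl D η bK kK K K') (hd : MCtl D η bd kd d d')
    (hd' : ∀ g h, Ctl D bd (kd * η) (star (d g h)) (star (d' g h))) :
    Ctl D ((n : ℝ) ^ 4 * (bd ^ 2 * bK ^ 2))
      ((n : ℝ) ^ 4 * (2 * bd * kd * bK ^ 2 + 2 * bd ^ 2 * bK * kK) * η) (fF K d) (fF K' d') := by
  refine (Ctl.sum univ fun g _ => Ctl.sum univ fun h _ => Ctl.sum univ fun g' _ => Ctl.sum univ
    fun h' _ => ((hd' g h).mul ((hK g g').mul (hK h h'))).mul (hd g' h')).mono ?_ ?_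
  all_goals
    simp only [sum_const, nsmul_eq_mul, card_univ]
    have hc : (Fintype.card ι : ℝ) ≤ n := by exact_mod_cast hn
    simp only [← mul_assoc]
  · calc (Fintype.card ι : ℝ) * Fintype.card ι * Fintype.card ι * Fintype.card ι * bd * bK * bK * bd
        ≤ (n : ℝ) * n * n * n * bd * bK * bK * bd := by gcongr
      _ = _ := by ring
  · calc _ = (Fintype.card ι : ℝ) ^ 4 * ((2 * bd * kd * bK ^ 2 + 2 * bd ^ 2 * bK * kK) * η) := by ring
      _ ≤ (n : ℝ) ^ 4 * ((2 * bd * kd * bK ^ 2 + 2 * bd ^ 2 * bK * kK) * η) := by gcongr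
      _ = _ := by ring

end

end Vale.Agent.P095.All.RowMat
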