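import Mathlib

/-!
# P095 row element for amenable groups: the coefficient matrix

For weights `w` and a kernel matrix `K` with entries in an algebra the coefficients are
`D f(D K D) D`, where `D` is the diagonal matrix of the roots of the weights.
-/

namespace Vale.Agent.P095.All.RowMat

open Matrix Polynomial

noncomputable section

variable {ι κ : Type} [Fintype ι] [DecidableEq ι] [Fintype κ] [DecidableEq κ]
set_option linter.unusedSectionVars false

variable {A B : Type} [Ring A] [Algebra ℂ A] [Ring B] [Algebra ℂ B]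

/-- The diagonal matrix of the roots of the weights. -/
def rootW (A : Type) [Ring A] [Algebra ℂ A] (w : ι → ℝ) : Matrix ι ι A :=
  diagonal fun g => algebraMap ℂ A (Real.sqrt (w g) : ℂ)

/-- A real polynomial at a matrix over a complex algebra. -/
def realEval (f : ℝ[X]) (Q : Matrix ι ι A) : Matrix ι ι A :=
  aeval Q (f.map Complex.ofRealHom)

/-- The coefficients of the row element. -/
def coef (f : ℝ[X]) (w : ι → ℝ) (K : Matrix ι ι A) : Matrix ι ι A :=
  rootW A w * realEval f (rootW A w * K * rootW A w) * rootW A w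

theorem rootW_map (φ : A →ₐ[ℂ] B) (w : ι → ℝ) : (rootW A w).map φ = rootW B w := by
  simp [rootW, diagonal_map]

theorem coef_map (φ : A →ₐ[ℂ] B) (f : ℝ[X]) (w : ι → ℝ) (K : Matrix ι ι A) :
    (coef f w K).map φ = coef f w (K.map φ) := by
  show φ.mapMatrix (coef f w K) = coef f w (φ.mapMatrix K)
  have h : φ.mapMatrix (rootW A w) = rootW B w := rootW_map φ w
  rw [coef, coef, realEval, realEval, map_mul, map_mul, ← aeval_algHom_apply, map_mul, map_mul, h]

theorem rootW_reindex (e : ι ≃ κ) (w : κ → ℝ) :
    reindexAlgEquiv ℂ A e (rootW A (w ∘ e)) = rootW A w := by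
  simp [rootW, Function.comp_def]

theorem coef_submatrix (e : ι ≃ κ) (f : ℝ[X]) (w : κ → ℝ) (K : Matrix κ κ A) :
    coef f (w ∘ e) (K.submatrix e e) = (coef f w K).submatrix e e := by
  have hK : reindexAlgEquiv ℂ A e (K.submatrix e e) = K := by simp
  have h : reindexAlgEquiv ℂ A e (coef f (w ∘ e) (K.submatrix e e)) = coef f w K := by
    rw [coef, coef, realEval, realEval, map_mul, map_mul, ← aeval_algHom_apply, map_mul, map_mul,
      rootW_reindex, hK]
  rw [← h]; simp

theorem coef_eq_zero_left {f : ℝ[X]} {w : ι → ℝ} {K : Matrix ι ι A} {g : ι} (h : w g = 0) (g' : ι) :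
    coef f w K g g' = 0 := by
  rw [coef, mul_assoc, rootW, diagonal_mul]
  simp [h]

theorem coef_eq_zero_right {f : ℝ[X]} {w : ι → ℝ} {K : Matrix ι ι A} {g' : ι} (h : w g' = 0) (g : ι) :
    coef f w K g g' = 0 := by
  rw [coef, rootW, mul_diagonal]
  simp [h]

theorem coef_congr {f : ℝ[X]} {w : ι → ℝ} {K K' : Matrix ι ι A}
    (h : ∀ g g', w g ≠ 0 → w g' ≠ 0 → K g g' = K' g g') : coef f w K = coef f w K' := by
  have e : rootW A w * K * rootW A w = rootW A w * K' * rootW A w := by
    ext g g'
    rw [rootW, mul_diagonal, mul_diagonal, diagonal_mul, diagonal_mul]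
    by_cases h1 : w g = 0
    · simp [h1]
    by_cases h2 : w g' = 0
    · simp [h2]
    rw [h g g' h1 h2]
  rw [coef, coef, e]

end

end Vale.Agent.P095.All.RowMat
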