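import Vale.Agent.P095.All.RowMat.Scalar

/-!
# P095 row element for amenable groups: the bounds for exactly commuting entries

Characters of the algebra of the entries reduce them to positive matrices in the cube.
-/

namespace Vale.Agent.P095.All.RowMat

open Matrix Finset Polynomial WeakDual Vale.Agent.P095.Amen
open scoped ComplexConjugate ComplexOrder

noncomputable section

variable {ι : Type} [Fintype ι] [DecidableEq ι]

theorem norm_le_of_characters {B : Type} [CommCStarAlgebra B] [Nontrivial B] {x : B} {c : ℝ}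
    (hc : 0 ≤ c) (h : ∀ χ : characterSpace ℂ B, ‖χ x‖ ≤ c) : ‖x‖ ≤ c := by
  rw [← (AddMonoidHomClass.isometry_iff_norm _).1 (gelfandTransform_isometry B) x,
    ContinuousMap.norm_le _ hc]
  exact h

/-- The bounds for exactly commuting entries. -/
theorem bounds_of_commuting {f : ℝ[X]} {N : ℕ} {a : ℕ → ℝ} {w v : ι → ℝ} {m : ℕ} {c₁ c₂ : ℝ}
    (h1 : 0 ≤ c₁) (h2 : 0 ≤ c₂)
    (hscal : ∀ Z ∈ gramSet ι, ‖errOne f N a w m Z‖ ≤ c₁ ∧ ‖errDiff f N a w v m Z‖ ≤ c₂)
    {D : Type} [CStarAlgebra D] [Nontrivial D] {X : ι → ι → D} (hX : NearGram 0 X) :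
    ‖errOne f N a w m X‖ ≤ c₁ ∧ ‖errDiff f N a w v m X‖ ≤ c₂ := by
  set s : Set D := Set.range fun p : ι × ι => X p.1 p.2 with hs
  have hcomm : ∀ x ∈ s, ∀ y ∈ s, x * y = y * x := by
    rintro _ ⟨p, rfl⟩ _ ⟨q, rfl⟩
    exact sub_eq_zero.1 (norm_le_zero_iff.1 (hX.comm p.1 p.2 q.1 q.2))
  have hcomm' : ∀ x ∈ s, ∀ y ∈ s, x * star y = star y * x := by
    rintro x hx _ ⟨q, rfl⟩
    rw [hX.symm]
    exact hcomm x hx _ ⟨(q.2, q.1), rfl⟩
  set T := (StarAlgebra.adjoin ℂ s).topologicalClosure with hT
  have : IsClosed (T : Set D) := StarSubalgebra.isClosed_topologicalClosure _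
  let : CommCStarAlgebra T :=
    { (inferInstance : CStarAlgebra T) with
      mul_comm :=
        (StarSubalgebra.commRingTopologicalClosure (StarAlgebra.adjoin ℂ s)
          (StarAlgebra.isMulCommutative_adjoin ℂ hcomm hcomm').is_comm.comm).mul_comm }
  set Y : ι → ι → T := fun g h => ⟨X g h,
    StarSubalgebra.le_topologicalClosure _ (StarAlgebra.subset_adjoin ℂ s ⟨(g, h), rfl⟩)⟩ with hY
  have hmem : ∀ χ : characterSpace ℂ T, (fun g h => χ (Y g h)) ∈ gramSet ι := by
    intro χ
    refine ⟨fun g h => ?_, fun g h => ?_, fun c => ?_⟩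
    · exact (spectrum.norm_le_norm_of_mem (WeakDual.CharacterSpace.apply_mem_spectrum χ (Y g h))).trans
        (hX.norm g h)
    · show conj (χ (Y g h)) = χ (Y h g)
      rw [← Complex.star_def, ← map_star]
      exact congrArg χ (Subtype.ext (hX.symm g h))
    · obtain ⟨d, hd⟩ := hX.pos c
      rw [sub_zero] at hd
      set y : T := ∑ g, ∑ h, (conj (c g) * c h) • Y g h with hy
      have hyD : (y : D) = star d * d := by
        rw [← hd, hy, AddSubmonoidClass.coe_finsetSum]
        refine sum_congr rfl fun g _ => ?_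
        rw [AddSubmonoidClass.coe_finsetSum]
        rfl
      have hmem := WeakDual.CharacterSpace.apply_mem_spectrum χ y
      rw [StarSubalgebra.spectrum_eq, hyD] at hmem
      let := CStarAlgebra.spectralOrder D
      have := CStarAlgebra.spectralOrderedRing D
      have h0 : 0 ≤ χ y := spectrum_nonneg_of_nonneg (star_mul_self_nonneg d) hmem
      have e : χ y = ∑ g, ∑ h, conj (c g) * c h * χ (Y g h) := by
        rw [hy, map_sum]
        refine sum_congr rfl fun g _ => ?_
        rw [map_sum]
        refine sum_congr rfl fun h _ => ?_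
        rw [map_smul, smul_eq_mul]
      rw [e, Complex.le_def] at h0
      exact h0.1
  have hsub1 : T.subtype (errOne f N a w m Y) = errOne f N a w m X := map_errOne T.subtype f N a w m Y
  have hsub2 : T.subtype (errDiff f N a w v m Y) = errDiff f N a w v m X :=
    map_errDiff T.subtype f N a w v m Y
  constructor
  · rw [← hsub1]
    show ‖errOne f N a w m Y‖ ≤ c₁
    refine norm_le_of_characters h1 fun χ => ?_
    have e := map_errOne ({ WeakDual.CharacterSpace.toAlgHom χ with map_star' := map_star χ } : T →⋆ₐ[ℂ] ℂ)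
      f N a w m Y
    exact (congrArg norm e).trans_le (hscal _ (hmem χ)).1
  · rw [← hsub2]
    show ‖errDiff f N a w v m Y‖ ≤ c₂
    refine norm_le_of_characters h2 fun χ => ?_
    have e := map_errDiff ({ WeakDual.CharacterSpace.toAlgHom χ with map_star' := map_star χ } : T →⋆ₐ[ℂ] ℂ)
      f N a w v m Y
    exact (congrArg norm e).trans_le (hscal _ (hmem χ)).2

end

end Vale.Agent.P095.All.RowMat
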