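import Vale.Agent.P095.All.RowMat.Kernel
import Vale.Agent.P095.Amen.Defs

/-!
# P095 row element for amenable groups: the form of the two marks in an algebra

The kernel matrix, the form and the damping product are natural under `*`-homomorphisms.
-/

namespace Vale.Agent.P095.All.RowMat

open Matrix Finset Polynomial Vale.Agent.P095.Amen
open scoped ComplexConjugate ComplexOrder

noncomputable section

variable {ι : Type} [Fintype ι] [DecidableEq ι]
variable {A B : Type} [Ring A] [Algebra ℂ A] [Ring B] [Algebra ℂ B]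

/-- The kernel matrix of a matrix of means. -/
def kerMat (N : ℕ) (a : ℕ → ℝ) (z : ι → ι → A) : Matrix ι ι A :=
  of fun g h => ∑ n ∈ Finset.range N, (a n : ℂ) • z g h ^ (n + 1)

/-- The form of the two marks. -/
def fF [Star A] (K d : Matrix ι ι A) : A :=
  ∑ g, ∑ h, ∑ g', ∑ h', star (d g h) * (K g g' * K h h') * d g' h'

/-- The damping product, one factor for each diagonal entry. -/
def qProd (m : ℕ) (z : ι → ι → A) : A :=
  ((Finset.univ : Finset ι).toList.map fun g => z g g ^ m).prod

/-- The damped error of the value. -/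
def errOne [Star A] (f : ℝ[X]) (N : ℕ) (a : ℕ → ℝ) (w : ι → ℝ) (m : ℕ) (z : ι → ι → A) : A :=
  star (qProd m z) * (fF (kerMat N a z) (coef f w (kerMat N a z)) - 1) * qProd m z

/-- The damped form at a difference. -/
def errDiff [Star A] (f : ℝ[X]) (N : ℕ) (a : ℕ → ℝ) (w v : ι → ℝ) (m : ℕ) (z : ι → ι → A) : A :=
  star (qProd m z) * fF (kerMat N a z) (coef f w (kerMat N a z) - coef f v (kerMat N a z)) *
    qProd m z

omit [Fintype ι] [DecidableEq ι] in
theorem kerMat_complex (N : ℕ) (a : ℕ → ℝ) (Z : Matrix ι ι ℂ) : kerMat N a Z = kmat N a Z := rfl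

omit [DecidableEq ι] in
theorem fF_complex (K d : Matrix ι ι ℂ) : fF K d = form K d d := by
  refine sum_congr rfl fun g _ => sum_congr rfl fun h _ => sum_congr rfl fun g' _ =>
    sum_congr rfl fun h' _ => ?_
  rw [Complex.star_def]; ring

section natural

variable [StarRing A] [StarRing B] (φ : A →⋆ₐ[ℂ] B)

omit [Fintype ι] [DecidableEq ι] in
theorem map_kerMat (N : ℕ) (a : ℕ → ℝ) (z : ι → ι → A) :
    (kerMat N a z).map φ = kerMat N a fun g h => φ (z g h) := by
  ext g h
  simp only [kerMat, Matrix.map_apply, of_apply, map_sum]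
  exact sum_congr rfl fun n _ => by rw [map_smul, map_pow]

omit [DecidableEq ι] in
theorem map_fF (K d : Matrix ι ι A) : φ (fF K d) = fF (K.map φ) (d.map φ) := by
  simp [fF, map_sum, map_mul, map_star]

omit [DecidableEq ι] in
theorem map_qProd (m : ℕ) (z : ι → ι → A) : φ (qProd m z) = qProd m fun g h => φ (z g h) := by
  simp [qProd, map_list_prod, List.map_map, Function.comp_def, map_pow]

theorem map_coef (f : ℝ[X]) (w : ι → ℝ) (K : Matrix ι ι A) :
    (coef f w K).map φ = coef f w (K.map φ) :=
  coef_map φ.toAlgHom f w K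

theorem map_errOne (f : ℝ[X]) (N : ℕ) (a : ℕ → ℝ) (w : ι → ℝ) (m : ℕ) (z : ι → ι → A) :
    φ (errOne f N a w m z) = errOne f N a w m fun g h => φ (z g h) := by
  simp only [errOne, map_mul, map_star, map_sub, map_one, map_qProd, map_fF, map_coef, map_kerMat]

theorem map_errDiff (f : ℝ[X]) (N : ℕ) (a : ℕ → ℝ) (w v : ι → ℝ) (m : ℕ) (z : ι → ι → A) :
    φ (errDiff f N a w v m z) = errDiff f N a w v m fun g h => φ (z g h) := by
  have h : ∀ X Y : Matrix ι ι A, (X - Y).map φ = X.map φ - Y.map φ := fun X Y => by ext; simp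
  simp only [errDiff, map_mul, map_star, map_qProd, map_fF, map_coef, map_kerMat, h]

end natural

/-- Almost commuting contractions with the symmetries and the positivity of a Gram matrix. -/
structure NearGram {F : Type} [CStarAlgebra F] (τ : ℝ) (z : ι → ι → F) : Prop where
  norm : ∀ g h, ‖z g h‖ ≤ 1
  symm : ∀ g h, star (z g h) = z h g
  comm : ∀ g h k l, ‖z g h * z k l - z k l * z g h‖ ≤ τ
  pos : ∀ c : ι → ℂ, SqLe 0 (∑ g, ∑ h, (conj (c g) * c h) • z g h)

end

end Vale.Agent.P095.All.RowMat
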