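import Vale.Agent.P095.All.RowMat.Main

/-!
# P095 row element for amenable groups: the kernel

A power series with nonnegative coefficients of sum one, starting in degree one, that is nearly real
on the disc, and the correlation matrices it produces.
-/

namespace Vale.Agent.P095.All.RowMat

open Matrix Finset Complex
open scoped ComplexOrder

noncomputable section

/-- The kernel with coefficients `a`. -/
def kfun (N : ℕ) (a : ℕ → ℝ) (z : ℂ) : ℂ := ∑ n ∈ range N, (a n : ℂ) * z ^ (n + 1)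

/-- Coefficients of a nearly real kernel. -/
theorem exists_kernel {ε : ℝ} (hε : 0 < ε) :
    ∃ (N : ℕ) (a : ℕ → ℝ), (∀ n, 0 ≤ a n) ∧ ∑ n ∈ range N, a n = 1 ∧
      ∀ z : ℂ, ‖z‖ ≤ 1 → |(kfun N a z).im| ≤ ε := by
  set M := 3 / ε + 1 with hM
  set ρ := 1 - Real.exp (-M) with hρ
  have hρ0 : 0 ≤ ρ := by
    have : Real.exp (-M) ≤ 1 := Real.exp_le_one_iff.2 (by rw [hM]; linarith [div_pos three_pos hε])
    linarith
  have hρ1 : ρ < 1 := by linarith [Real.exp_pos (-M)]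
  set b : ℕ → ℝ := fun n => ρ ^ (n + 1) / (n + 1) with hb
  have hb0 : ∀ n, 0 ≤ b n := fun n => by positivity
  have hsum : HasSum b M := by
    have h := Real.hasSum_pow_div_log_of_abs_lt_one (x := ρ) (by rwa [abs_of_nonneg hρ0])
    rwa [hρ, sub_sub_cancel, Real.log_exp, neg_neg, ← hρ] at h
  obtain ⟨N, hN⟩ := Metric.tendsto_atTop.1 hsum.tendsto_sum_nat 1 one_pos
  replace hN := hN N le_rfl
  rw [Real.dist_eq, abs_lt] at hN
  set H := ∑ n ∈ range N, b n with hH
  have hHlow : 3 / ε ≤ H := by linarith [hN.1]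
  have hH0 : 0 < H := lt_of_lt_of_le (by positivity) hHlow
  refine ⟨N, fun n => b n / H, fun n => div_nonneg (hb0 n) hH0.le,
    by rw [← sum_div, ← hH, div_self hH0.ne'], fun z hz => ?_⟩
  set q := (ρ : ℂ) * z with hq
  have hq1 : ‖q‖ ≤ ρ := by
    rw [hq, norm_mul, Complex.norm_real, Real.norm_of_nonneg hρ0]
    exact mul_le_of_le_one_right hρ0 hz
  set c : ℕ → ℂ := fun n => q ^ (n + 1) / (n + 1) with hc
  have hcsum : HasSum c (-Complex.log (1 - q)) :=
    Complex.hasSum_taylorSeries_neg_log' (hq1.trans_lt hρ1)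
  have e : kfun N (fun n => b n / H) z = (∑ n ∈ range N, c n) / (H : ℂ) := by
    rw [kfun, sum_div]
    refine sum_congr rfl fun n _ => ?_
    simp only [hb, hc, hq, mul_pow]
    push_cast
    ring
  have htail : HasSum (fun n => c (n + N)) (-Complex.log (1 - q) - ∑ n ∈ range N, c n) :=
    (hasSum_nat_add_iff' N).2 hcsum
  have htail' : HasSum (fun n => b (n + N)) (M - H) := (hasSum_nat_add_iff' N).2 hsum
  have hle : ‖-Complex.log (1 - q) - ∑ n ∈ range N, c n‖ ≤ M - H := by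
    rw [← htail.tsum_eq]
    refine tsum_of_norm_bounded htail' fun n => ?_
    show ‖q ^ (n + N + 1) / ((n + N : ℕ) + 1 : ℂ)‖ ≤ ρ ^ (n + N + 1) / ((n + N : ℕ) + 1 : ℝ)
    have e2 : ‖((n + N : ℕ) + 1 : ℂ)‖ = ((n + N : ℕ) + 1 : ℝ) := by
      rw [show ((n + N : ℕ) + 1 : ℂ) = (((n + N + 1 : ℕ)) : ℂ) by push_cast; ring, norm_natCast]
      push_cast; ring
    rw [norm_div, e2, norm_pow]
    gcongr
  have harg : |(Complex.log (1 - q)).im| ≤ Real.pi / 2 := by
    rw [Complex.log_im, Complex.abs_arg_le_pi_div_two_iff, Complex.sub_re, Complex.one_re]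
    linarith [Complex.re_le_norm q]
  have him := (Complex.abs_im_le_norm _).trans hle
  rw [Complex.sub_im, Complex.neg_im] at him
  rw [e, Complex.div_ofReal_im, abs_div, abs_of_pos hH0, div_le_iff₀ hH0]
  have h3 : 3 ≤ ε * H := by rw [div_le_iff₀ hε] at hHlow; linarith
  obtain ⟨a1, a2⟩ := abs_le.1 him
  obtain ⟨a3, a4⟩ := abs_le.1 harg
  rw [abs_le]
  constructor <;> linarith [Real.pi_lt_four, hN.1]

variable {ι : Type}

/-- The matrix of the kernel. -/
def kmat (N : ℕ) (a : ℕ → ℝ) (Z : Matrix ι ι ℂ) : Matrix ι ι ℂ :=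
  of fun g h => kfun N a (Z g h)

theorem kmat_posSemidef {N : ℕ} {a : ℕ → ℝ} (ha : ∀ n, 0 ≤ a n) {Z : Matrix ι ι ℂ}
    (hZ : Z.PosSemidef) : (kmat N a Z).PosSemidef := by
  have hpow : ∀ n, (of fun g h => Z g h ^ (n + 1) : Matrix ι ι ℂ).PosSemidef := by
    intro n
    induction n with
    | zero =>
      have e : (of fun g h => Z g h ^ (0 + 1) : Matrix ι ι ℂ) = Z := by ext g h; simp
      rw [e]; exact hZ
    | succ n ih =>
      have e : (of fun g h => Z g h ^ (n + 1 + 1) : Matrix ι ι ℂ)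
          = Matrix.hadamard (of fun g h => Z g h ^ (n + 1)) Z := by
        ext g h; simp [pow_succ]
      rw [e]; exact ih.hadamard hZ
  have e : kmat N a Z = ∑ n ∈ range N, (a n : ℂ) • (of fun g h => Z g h ^ (n + 1) : Matrix ι ι ℂ) := by
    ext g h
    simp [kmat, kfun, Matrix.sum_apply]
  rw [e]
  exact posSemidef_sum _ fun n _ => (hpow n).smul (by simpa using ha n)

theorem kfun_one {N : ℕ} {a : ℕ → ℝ} (h1 : ∑ n ∈ range N, a n = 1) : kfun N a 1 = 1 := by
  simp [kfun, ← Complex.ofReal_sum, h1]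

theorem norm_kfun_le {N : ℕ} {a : ℕ → ℝ} (ha : ∀ n, 0 ≤ a n) (h1 : ∑ n ∈ range N, a n = 1) {z : ℂ}
    (hz : ‖z‖ ≤ 1) : ‖kfun N a z‖ ≤ 1 := by
  refine (norm_sum_le _ _).trans (le_trans (sum_le_sum fun n _ => ?_) h1.le)
  rw [norm_mul, Complex.norm_real, Real.norm_of_nonneg (ha n), norm_pow]
  exact mul_le_of_le_one_right (ha n) (pow_le_one₀ (norm_nonneg z) hz)

variable [Fintype ι] [DecidableEq ι]

/-- A positive matrix with unit diagonal has entries in the disc. -/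
theorem norm_entry_le {Z : Matrix ι ι ℂ} (hZ : Z.PosSemidef) (hd : ∀ g, Z g g = 1) (g h : ι) :
    ‖Z g h‖ ≤ 1 := by
  obtain ⟨B, rfl⟩ := exists_gram hZ
  exact norm_gram_le hd g h

/-- Kernel and coefficients together: what the row element uses. -/
theorem exists_row_data (n : ℕ) {δ : ℝ} (hδ : 0 < δ) :
    ∃ (f : Polynomial ℝ) (N : ℕ) (a : ℕ → ℝ), (∀ r, 0 ≤ a r) ∧ ∑ r ∈ range N, a r = 1 ∧
      ∀ (ι : Type) [Fintype ι] [DecidableEq ι], Fintype.card ι ≤ n →
      ∀ Z : Matrix ι ι ℂ, Z.PosSemidef → (∀ g, Z g g = 1) →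
      ∀ w v : ι → ℝ, (∀ g, 0 ≤ w g) → ∑ g, w g = 1 → (∀ g, 0 ≤ v g) → ∑ g, v g = 1 →
        let K := kmat N a Z
        ‖form K (coef f w K) (coef f w K) - 1‖ ≤ δ ∧
          (form K (coef f w K - coef f v K) (coef f w K - coef f v K)).re
            ≤ ∑ g, |w g - v g| + δ := by
  obtain ⟨f, ε, hε, hf⟩ := exists_poly_eps n hδ
  obtain ⟨N, a, ha, h1, him⟩ := exists_kernel hε
  refine ⟨f, N, a, ha, h1, fun ι _ _ hn Z hZ hd => hf ι hn _ (kmat_posSemidef ha hZ) (fun g => ?_)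
    fun g h => him _ (norm_entry_le hZ hd g h)⟩
  show kfun N a (Z g g) = 1
  rw [hd g, kfun_one h1]

end

end Vale.Agent.P095.All.RowMat
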