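import Mathlib

/-!
# P095 row element for amenable groups: a polynomial for the square root
-/

namespace Vale.Agent.P095.All.RowMat

open Polynomial

/-- `t f(t)` approximates the square root on `[0,1]`. -/
theorem exists_sqrt_poly {η : ℝ} (hη : 0 < η) :
    ∃ f : ℝ[X], ∀ t ∈ Set.Icc (0 : ℝ) 1, |f.eval t * t - Real.sqrt t| ≤ η := by
  obtain ⟨p, hp⟩ := exists_polynomial_near_of_continuousOn 0 1 Real.sqrt
    Real.continuous_sqrt.continuousOn (η / 2) (half_pos hη)
  refine ⟨p.divX, fun t ht => ?_⟩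
  have h0 := hp 0 (Set.left_mem_Icc.2 zero_le_one)
  rw [Real.sqrt_zero, sub_zero, ← coeff_zero_eq_eval_zero] at h0
  have e : p.eval t = p.divX.eval t * t + p.coeff 0 := by
    conv_lhs => rw [← divX_mul_X_add p]
    simp
  have h := hp t ht
  rw [e] at h
  rw [abs_lt] at h0 h
  rw [abs_le]
  constructor <;> linarith [h.1, h.2, h0.1, h0.2]

end Vale.Agent.P095.All.RowMat
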