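import Vale.Agent.P095.All.RowMat.Spectral
import Vale.Agent.P095.All.RowMat.Poly

/-!
# P095 row element for amenable groups: the matrix inequality

For a nearly real correlation matrix `K` the quadratic form of the two marks takes the value one at
the coefficients of any probability vector, and at most the distance of the weights, up to a small
error, at a difference.
-/

namespace Vale.Agent.P095.All.RowMat

open Matrix Finset Polynomial
open scoped ComplexConjugate ComplexOrder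

noncomputable section

variable {ι : Type} [Fintype ι] [DecidableEq ι]

/-- The quadratic form of the two marks. -/
def form (K a b : Matrix ι ι ℂ) : ℂ :=
  ∑ g, ∑ h, ∑ g', ∑ h', conj (a g h) * b g' h' * K g g' * K h h'

omit [DecidableEq ι] in
theorem form_eq_trace (K a b : Matrix ι ι ℂ) : form K a b = trace (aᴴ * K * b * Kᵀ) := by
  simp only [form, trace, diag_apply, mul_apply, conjTranspose_apply, transpose_apply, sum_mul]
  rw [sum_comm]
  refine sum_congr rfl fun h _ => ?_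
  rw [sum_comm_cycle]
  refine sum_congr rfl fun h' _ => ?_
  rw [sum_comm]
  refine sum_congr rfl fun g' _ => sum_congr rfl fun g _ => ?_
  rw [Complex.star_def]; ring

theorem aeval_intertwine {S : Type} [Ring S] [Algebra ℂ S] (p : ℂ[X]) (x y : S) :
    x * aeval (y * x) p = aeval (x * y) p * x := by
  have hn : ∀ n : ℕ, x * (y * x) ^ n = (x * y) ^ n * x := fun n => by
    induction n with
    | zero => simp
    | succ n ih => rw [pow_succ, pow_succ, ← mul_assoc, ih]; simp only [mul_assoc]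
  induction p using Polynomial.induction_on' with
  | add p q hp hq => rw [map_add, map_add, mul_add, add_mul, hp, hq]
  | monomial n a =>
    rw [aeval_monomial, aeval_monomial, ← mul_assoc, ← Algebra.commutes a x, mul_assoc, hn,
      ← mul_assoc]

/-- The weighted Gram matrix in the other order. -/
def opP (B : Matrix ι ι ℂ) (w : ι → ℝ) : Matrix ι ι ℂ :=
  B * diagonal (fun g => (w g : ℂ)) * Bᴴ

theorem opP_posSemidef (B : Matrix ι ι ℂ) {w : ι → ℝ} (hw : ∀ g, 0 ≤ w g) :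
    (opP B w).PosSemidef :=
  (Matrix.PosSemidef.diagonal fun g => by simpa using hw g).mul_mul_conjTranspose_same _

theorem opP_sub (B : Matrix ι ι ℂ) (w v : ι → ℝ) : opP B w - opP B v = opP B (fun g => w g - v g) := by
  simp only [opP, ← Matrix.sub_mul, ← Matrix.mul_sub, diagonal_sub, Complex.ofReal_sub]

theorem trace_opP {B : Matrix ι ι ℂ} (hdiag : ∀ g, (Bᴴ * B) g g = 1) (w : ι → ℝ) :
    trace (opP B w) = ((∑ g, w g : ℝ) : ℂ) := by
  rw [opP, trace_mul_cycle, trace, Complex.ofReal_sum]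
  simp [diag_apply, mul_diagonal, hdiag]

theorem sandwich (B : Matrix ι ι ℂ) (f : ℝ[X]) {w : ι → ℝ} (hw : ∀ g, 0 ≤ w g) :
    B * coef f w (Bᴴ * B) * Bᴴ = realEval f (opP B w) * opP B w := by
  have hD : rootW ℂ w * rootW ℂ w = diagonal (fun g => (w g : ℂ)) := by
    rw [rootW, diagonal_mul_diagonal]
    congr 1
    funext g
    simp [← Complex.ofReal_mul, Real.mul_self_sqrt (hw g)]
  set D := rootW ℂ w with hDdef
  have h : rootW ℂ w * (Bᴴ * B) * rootW ℂ w = (D * Bᴴ) * (B * D) := by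
    simp only [hDdef, Matrix.mul_assoc]
  have h' : (B * D) * (D * Bᴴ) = opP B w := by
    rw [opP, ← hD]; simp only [Matrix.mul_assoc]
  calc B * coef f w (Bᴴ * B) * Bᴴ
      = (B * D) * realEval f ((D * Bᴴ) * (B * D)) * (D * Bᴴ) := by
        rw [coef, h]; simp only [hDdef, Matrix.mul_assoc]
    _ = realEval f ((B * D) * (D * Bᴴ)) * (B * D) * (D * Bᴴ) := by
        rw [realEval, realEval, aeval_intertwine]
    _ = _ := by rw [Matrix.mul_assoc _ (B * D), h']

omit [DecidableEq ι] in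
theorem norm_gram_le {B : Matrix ι ι ℂ} (hdiag : ∀ g, (Bᴴ * B) g g = 1) (g h : ι) :
    ‖(Bᴴ * B) g h‖ ≤ 1 := by
  have hcol : ∀ g, ∑ k, ‖B k g‖ ^ 2 = 1 := fun g => by
    have := hdiag g
    simp only [mul_apply, conjTranspose_apply] at this
    have e : ∀ k, star (B k g) * B k g = ((‖B k g‖ ^ 2 : ℝ) : ℂ) := fun k => by
      rw [Complex.ofReal_pow]; exact Complex.conj_mul' _
    rw [sum_congr rfl fun k _ => e k, ← Complex.ofReal_sum] at this
    exact_mod_cast this
  rw [mul_apply]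
  refine (norm_sum_le _ _).trans ?_
  calc ∑ k, ‖Bᴴ g k * B k h‖ ≤ ∑ k, ((‖B k g‖ ^ 2 + ‖B k h‖ ^ 2) / 2) := sum_le_sum fun k _ => by
        rw [norm_mul, conjTranspose_apply, norm_star]
        nlinarith [two_mul_le_add_sq ‖B k g‖ ‖B k h‖]
    _ = 1 := by rw [← sum_div, sum_add_distrib, hcol, hcol]; norm_num

/-- A bound for the entries of the coefficients. -/
def entryBound (f : ℝ[X]) (N : ℕ) : ℝ :=
  ∑ n ∈ Finset.range (f.natDegree + 1), |f.coeff n| * (N : ℝ) ^ n

theorem norm_coef_le {K : Matrix ι ι ℂ} (hK : ∀ g h, ‖K g h‖ ≤ 1) {N : ℕ}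
    (hN : Fintype.card ι ≤ N) (f : ℝ[X]) {w : ι → ℝ} (hw : ∀ g, w g ≤ 1) (g h : ι) :
    ‖coef f w K g h‖ ≤ entryBound f N := by
  have hr : ∀ g, ‖((Real.sqrt (w g) : ℝ) : ℂ)‖ ≤ 1 := fun g => by
    rw [Complex.norm_real, Real.norm_of_nonneg (Real.sqrt_nonneg _)]
    exact (Real.sqrt_le_sqrt (hw g)).trans_eq Real.sqrt_one
  have h3 : ∀ {M : Matrix ι ι ℂ} {b : ℝ}, (∀ g h, ‖M g h‖ ≤ b) → ∀ g h,
      ‖(rootW ℂ w * M * rootW ℂ w) g h‖ ≤ b := fun {M b} hM g h => by
    rw [rootW, mul_diagonal, diagonal_mul, Algebra.algebraMap_self, RingHom.id_apply,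
      RingHom.id_apply, norm_mul, norm_mul]
    exact (mul_le_of_le_one_right (by positivity) (hr h)).trans
      ((mul_le_of_le_one_left (norm_nonneg _) (hr g)).trans (hM g h))
  have hQ := h3 hK
  set Q := rootW ℂ w * K * rootW ℂ w
  have hpow : ∀ n g h, ‖(Q ^ n) g h‖ ≤ (N : ℝ) ^ n := by
    intro n
    induction n with
    | zero => intro g h; rw [pow_zero, pow_zero, one_apply]; split_ifs <;> simp
    | succ n ih =>
      intro g h
      rw [pow_succ, mul_apply]
      refine (norm_sum_le _ _).trans ?_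
      calc ∑ k, ‖(Q ^ n) g k * Q k h‖ ≤ ∑ _k : ι, (N : ℝ) ^ n := sum_le_sum fun k _ => by
            rw [norm_mul]
            exact (mul_le_mul (ih g k) (hQ k h) (norm_nonneg _) (by positivity)).trans_eq (mul_one _)
        _ ≤ (N : ℝ) ^ (n + 1) := by
            rw [sum_const, nsmul_eq_mul, card_univ, pow_succ']
            exact mul_le_mul_of_nonneg_right (by exact_mod_cast hN) (by positivity)
  refine h3 (fun g h => ?_) g h
  have hdeg : (f.map Complex.ofRealHom).natDegree = f.natDegree :=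
    natDegree_map_eq_of_injective Complex.ofReal_injective f
  rw [realEval, aeval_eq_sum_range, hdeg, Matrix.sum_apply]
  refine (norm_sum_le _ _).trans (sum_le_sum fun n _ => ?_)
  rw [Matrix.smul_apply, smul_eq_mul, norm_mul, coeff_map]
  exact mul_le_mul (le_of_eq (Complex.norm_real _)) (hpow n g h) (norm_nonneg _) (abs_nonneg _)

omit [DecidableEq ι] in
/-- Replacing the transpose by the matrix itself. -/
theorem form_near {B : Matrix ι ι ℂ} (hdiag : ∀ g, (Bᴴ * B) g g = 1) {ε L : ℝ} {N : ℕ}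
    (hN : Fintype.card ι ≤ N) (hL : 0 ≤ L) (hε : 0 ≤ ε) (him : ∀ g h, |((Bᴴ * B) g h).im| ≤ ε)
    {a : Matrix ι ι ℂ} (ha : ∀ g h, ‖a g h‖ ≤ L) :
    ‖form (Bᴴ * B) a a - (frob (B * a * Bᴴ) : ℂ)‖ ≤ (N : ℝ) ^ 4 * L ^ 2 * (2 * ε) := by
  set K := Bᴴ * B with hK
  have h1 : (frob (B * a * Bᴴ) : ℂ) = trace (aᴴ * K * a * K) := by
    rw [← trace_star_mul_self, conjTranspose_mul, conjTranspose_mul, conjTranspose_conjTranspose]
    rw [show B * (aᴴ * Bᴴ) * (B * a * Bᴴ) = B * (aᴴ * K * a * Bᴴ) by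
      simp only [hK, Matrix.mul_assoc], trace_mul_comm, Matrix.mul_assoc (aᴴ * K * a), ← hK]
  have hM : ∀ g h, ‖(aᴴ * K * a) g h‖ ≤ (N : ℝ) ^ 2 * L ^ 2 := by
    intro g h
    simp only [mul_apply, sum_mul]
    refine (norm_sum_le _ _).trans ((sum_le_sum fun j _ => (norm_sum_le _ _).trans
      (sum_le_sum fun i _ => (?_ : _ ≤ L ^ 2))).trans ?_)
    · rw [norm_mul, norm_mul, conjTranspose_apply, norm_star, sq]
      calc ‖a i g‖ * ‖K i j‖ * ‖a j h‖ ≤ L * 1 * L := by
            gcongr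
            exacts [ha _ _, norm_gram_le hdiag _ _, ha _ _]
        _ = L * L := by ring
    · simp only [sum_const, nsmul_eq_mul, card_univ]
      rw [← mul_assoc, ← sq]
      gcongr
  have hherm : ∀ g h, K h g = conj (K g h) := fun g h => by
    rw [← Complex.star_def, ← conjTranspose_apply, hK, conjTranspose_mul, conjTranspose_conjTranspose]
  rw [form_eq_trace, h1, ← trace_sub, ← Matrix.mul_sub, trace]
  simp only [diag_apply, mul_apply (M := aᴴ * K * a)]
  refine (norm_sum_le _ _).trans ((sum_le_sum fun g _ => (norm_sum_le _ _).trans (sum_le_sum fun h _ =>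
    (?_ : _ ≤ (N : ℝ) ^ 2 * L ^ 2 * (2 * ε)))).trans ?_)
  · rw [norm_mul]
    refine mul_le_mul (hM g h) ?_ (norm_nonneg _) (by positivity)
    rw [Matrix.sub_apply, transpose_apply, hherm g h, Complex.sub_conj, norm_mul, Complex.norm_I,
      mul_one, Complex.norm_real, Real.norm_eq_abs, abs_mul, abs_two]
    exact mul_le_mul_of_nonneg_left (him g h) (by norm_num)
  · simp only [sum_const, nsmul_eq_mul, card_univ]
    calc (Fintype.card ι : ℝ) * ((Fintype.card ι : ℝ) * ((N : ℝ) ^ 2 * L ^ 2 * (2 * ε)))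
        ≤ (N : ℝ) * ((N : ℝ) * ((N : ℝ) ^ 2 * L ^ 2 * (2 * ε))) := by gcongr
      _ = _ := by ring

/-- The value and the difference before replacing the transpose. -/
theorem frob_bounds {B : Matrix ι ι ℂ} (hdiag : ∀ g, (Bᴴ * B) g g = 1) {f : ℝ[X]} {η t : ℝ} {N : ℕ}
    (hN : Fintype.card ι ≤ N) (hη0 : 0 ≤ η) (hη : η ≤ 1) (ht : 0 < t)
    (hf : ∀ x ∈ Set.Icc (0 : ℝ) 1, |f.eval x * x - Real.sqrt x| ≤ η)
    {w v : ι → ℝ} (hw : ∀ g, 0 ≤ w g) (hw1 : ∑ g, w g = 1) (hv : ∀ g, 0 ≤ v g) (hv1 : ∑ g, v g = 1) :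
    |frob (B * coef f w (Bᴴ * B) * Bᴴ) - 1| ≤ N * (3 * η) ∧
      frob (B * (coef f w (Bᴴ * B) - coef f v (Bᴴ * B)) * Bᴴ)
        ≤ (1 + t) * ∑ g, |w g - v g| + (1 + 1 / t) * (4 * N * η) := by
  have main : ∀ u : ι → ℝ, (∀ g, 0 ≤ u g) → ∑ g, u g = 1 → ∃ R : Matrix ι ι ℂ,
      R.PosSemidef ∧ R * R = opP B u ∧ |frob (B * coef f u (Bᴴ * B) * Bᴴ) - 1| ≤ N * (3 * η) ∧
        frob (B * coef f u (Bᴴ * B) * Bᴴ - R) ≤ N * η := by
    intro u hu hu1
    obtain ⟨U, g, hg, hP, htr⟩ := exists_conjDiag (opP_posSemidef B hu)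
    rw [trace_opP hdiag, hu1] at htr
    have hsum : ∑ i, g i = 1 := by exact_mod_cast htr.symm
    have hg1 : ∀ i, g i ≤ 1 := fun i =>
      (single_le_sum (fun j _ => hg j) (mem_univ i)).trans_eq hsum
    have hA : B * coef f u (Bᴴ * B) * Bᴴ = conjDiag U (fun i => f.eval (g i) * g i) := by
      rw [sandwich B f hu, hP, realEval_conjDiag, conjDiag_mul]; rfl
    have hd : ∀ i, |f.eval (g i) * g i - Real.sqrt (g i)| ≤ η := fun i => hf _ ⟨hg i, hg1 i⟩
    refine ⟨conjDiag U (fun i => Real.sqrt (g i)), conjDiag_posSemidef U fun i => Real.sqrt_nonneg _,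
      ?_, ?_, ?_⟩
    · rw [conjDiag_mul, hP]
      exact congrArg (conjDiag U) (funext fun i => Real.mul_self_sqrt (hg i))
    · rw [hA, frob_conjDiag, ← hsum, ← sum_sub_distrib]
      refine (abs_sum_le_sum_abs _ _).trans ((sum_le_sum fun i _ => (?_ : _ ≤ 3 * η)).trans ?_)
      · obtain ⟨h1, h2⟩ := abs_le.1 (hd i)
        have h3 := Real.sqrt_nonneg (g i)
        have h4 : Real.sqrt (g i) ≤ 1 := (Real.sqrt_le_sqrt (hg1 i)).trans_eq Real.sqrt_one
        have h5 := Real.mul_self_sqrt (hg i)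
        set a := f.eval (g i) * g i
        set r := Real.sqrt (g i)
        rw [show a ^ 2 - g i = (a - r) * (a + r) by rw [← h5]; ring, abs_mul]
        calc |a - r| * |a + r| ≤ η * 3 := mul_le_mul (hd i) (abs_le.2 ⟨by linarith, by linarith⟩)
              (abs_nonneg _) hη0
          _ = 3 * η := mul_comm _ _
      · rw [sum_const, card_univ, nsmul_eq_mul]; gcongr
    · rw [hA, conjDiag_sub, frob_conjDiag]
      refine (sum_le_sum fun i _ => (?_ : _ ≤ η)).trans ?_
      · show (f.eval (g i) * g i - Real.sqrt (g i)) ^ 2 ≤ η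
        rw [← sq_abs]
        nlinarith [hd i, abs_nonneg (f.eval (g i) * g i - Real.sqrt (g i))]
      · rw [sum_const, card_univ, nsmul_eq_mul]; gcongr
  obtain ⟨R, hR, hR2, hA1, hAR⟩ := main w hw hw1
  obtain ⟨S, hS, hS2, -, hCS⟩ := main v hv hv1
  refine ⟨hA1, ?_⟩
  have hPS : frob (R - S) ≤ ∑ g, |w g - v g| :=
    frob_sub_le hR hS _ hdiag (by rw [hR2, hS2, opP_sub]; rfl)
  set A := B * coef f w (Bᴴ * B) * Bᴴ
  set C := B * coef f v (Bᴴ * B) * Bᴴ
  have e : B * (coef f w (Bᴴ * B) - coef f v (Bᴴ * B)) * Bᴴ = (R - S) + ((A - R) + -(C - S)) := by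
    rw [Matrix.mul_sub, Matrix.sub_mul]; abel
  rw [e]
  refine (frob_add_le ht _ _).trans (add_le_add (mul_le_mul_of_nonneg_left hPS (by linarith))
    (mul_le_mul_of_nonneg_left ?_ (by positivity)))
  refine (frob_add_le one_pos _ _).trans ?_
  have hneg : frob (-(C - S)) = frob (C - S) := by simp only [frob, Matrix.neg_apply, norm_neg]
  rw [hneg]; linarith

/-- The matrix inequality of the row element. -/
theorem exists_poly_eps (N : ℕ) {δ : ℝ} (hδ : 0 < δ) :
    ∃ (f : ℝ[X]) (ε : ℝ), 0 < ε ∧ ∀ (ι : Type) [Fintype ι] [DecidableEq ι], Fintype.card ι ≤ N →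
      ∀ K : Matrix ι ι ℂ, K.PosSemidef → (∀ g, K g g = 1) → (∀ g h, |(K g h).im| ≤ ε) →
      ∀ w v : ι → ℝ, (∀ g, 0 ≤ w g) → ∑ g, w g = 1 → (∀ g, 0 ≤ v g) → ∑ g, v g = 1 →
        ‖form K (coef f w K) (coef f w K) - 1‖ ≤ δ ∧
          (form K (coef f w K - coef f v K) (coef f w K - coef f v K)).re
            ≤ ∑ g, |w g - v g| + δ := by
  set t := δ / 8 with ht
  have ht0 : 0 < t := by positivity
  set η := min 1 (δ / (4 * (4 * ((N : ℝ) + 1) * (1 + 1 / t)))) with hη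
  have hη0 : 0 < η := by positivity
  obtain ⟨f, hf⟩ := exists_sqrt_poly hη0
  set L := entryBound f N
  have hL : 0 ≤ L := sum_nonneg fun _ _ => by positivity
  set ε := δ / (4 * (8 * ((N : ℝ) ^ 4 * L ^ 2) + 1)) with hεdef
  refine ⟨f, ε, by positivity, ?_⟩
  intro ι _ _ hN K hK hd him w v hw hw1 hv hv1
  obtain ⟨B, rfl⟩ := exists_gram hK
  have hN0 : (0 : ℝ) ≤ N := Nat.cast_nonneg N
  have hηb : (1 + 1 / t) * (4 * N * η) ≤ δ / 4 := by
    calc (1 + 1 / t) * (4 * N * η)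
        ≤ (1 + 1 / t) * (4 * ((N : ℝ) + 1) * (δ / (4 * (4 * ((N : ℝ) + 1) * (1 + 1 / t))))) := by
          gcongr
          · linarith
          · exact min_le_right _ _
      _ = δ / 4 := by field_simp
  have hηc : (N : ℝ) * (3 * η) ≤ δ / 4 := by
    refine le_trans ?_ hηb
    have h1 : 1 ≤ 1 + 1 / t := le_add_of_nonneg_right (by positivity)
    nlinarith [mul_nonneg (mul_nonneg hN0 hη0.le) (sub_nonneg.2 h1)]
  have hεb : (N : ℝ) ^ 4 * (2 * L) ^ 2 * (2 * ε) ≤ δ / 4 := by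
    rw [show (N : ℝ) ^ 4 * (2 * L) ^ 2 * (2 * ε) = 8 * ((N : ℝ) ^ 4 * L ^ 2) * ε by ring, hεdef]
    rw [mul_div_assoc', div_le_div_iff₀ (by positivity) (by norm_num)]
    nlinarith [mul_nonneg (mul_nonneg hN0 hN0) hδ.le]
  obtain ⟨h1, h2⟩ := frob_bounds hd hN hη0.le (min_le_left _ _) ht0 hf hw hw1 hv hv1
  have hle : ∀ u : ι → ℝ, (∀ g, 0 ≤ u g) → ∑ g, u g = 1 → ∀ g, u g ≤ 1 := fun u hu hu1 g =>
    (single_le_sum (fun j _ => hu j) (mem_univ g)).trans_eq hu1
  have hc : ∀ u : ι → ℝ, (∀ g, 0 ≤ u g) → ∑ g, u g = 1 → ∀ g h, ‖coef f u (Bᴴ * B) g h‖ ≤ L :=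
    fun u hu hu1 => norm_coef_le (norm_gram_le hd) hN f (hle u hu hu1)
  have hε0 : 0 ≤ ε := by positivity
  constructor
  · have h3 := form_near hd hN (by positivity : 0 ≤ 2 * L) hε0 him
      (fun g h => (hc w hw hw1 g h).trans (by linarith))
    have h4 : ‖((frob (B * coef f w (Bᴴ * B) * Bᴴ) : ℝ) : ℂ) - 1‖ ≤ δ / 4 := by
      rw [← Complex.ofReal_one, ← Complex.ofReal_sub, Complex.norm_real, Real.norm_eq_abs]
      exact h1.trans hηc
    linarith [norm_sub_le_norm_sub_add_norm_sub (form (Bᴴ * B) (coef f w (Bᴴ * B)) (coef f w (Bᴴ * B)))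
      ((frob (B * coef f w (Bᴴ * B) * Bᴴ) : ℝ) : ℂ) 1]
  · have h3 := form_near hd hN (by positivity : 0 ≤ 2 * L) hε0 him
      (a := coef f w (Bᴴ * B) - coef f v (Bᴴ * B)) (fun g h => by
        rw [Matrix.sub_apply, two_mul]
        exact (norm_sub_le _ _).trans (add_le_add (hc w hw hw1 g h) (hc v hv hv1 g h)))
    have h4 := (Complex.re_le_norm _).trans h3
    rw [Complex.sub_re, Complex.ofReal_re] at h4
    have h5 : ∑ g, |w g - v g| ≤ 2 := by
      calc ∑ g, |w g - v g| ≤ ∑ g, (w g + v g) := sum_le_sum fun g _ =>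
            abs_le.2 ⟨by linarith [hw g, hv g], by linarith [hw g, hv g]⟩
        _ = 2 := by rw [sum_add_distrib, hw1, hv1]; norm_num
    nlinarith [h5, mul_le_mul_of_nonneg_left h5 ht0.le]

end

end Vale.Agent.P095.All.RowMat
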