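import Vale.Agent.P095.All.RowMat.Gram

/-!
# P095 row element for amenable groups: damped bounds on all positive matrices in the cube

On correlation matrices the bounds are the matrix inequality; away from them the damping product is
uniformly small.
-/

namespace Vale.Agent.P095.All.RowMat

open Matrix Finset Polynomial Filter Topology
open scoped ComplexConjugate ComplexOrder

noncomputable section

variable {ι : Type} [Fintype ι] [DecidableEq ι]

omit [DecidableEq ι] in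
/-- The form of a positive matrix is a square. -/
theorem form_eq_frob (B a : Matrix ι ι ℂ) : form (Bᴴ * B) a a = (frob (B * a * Bᵀ) : ℂ) := by
  have h : (Bᴴ * B)ᵀ = Bᵀ * (Bᵀ)ᴴ := by
    rw [transpose_mul]; rfl
  rw [form_eq_trace, h, ← trace_star_mul_self, conjTranspose_mul, conjTranspose_mul, trace_mul_comm]
  simp only [Matrix.mul_assoc]
  rw [trace_mul_comm]
  simp only [Matrix.mul_assoc]

/-- Positive matrices in the cube. -/
def gramSet (ι : Type) [Fintype ι] : Set (ι → ι → ℂ) :=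
  {Z | (∀ g h, ‖Z g h‖ ≤ 1) ∧ (∀ g h, conj (Z g h) = Z h g) ∧
    ∀ c : ι → ℂ, 0 ≤ (∑ g, ∑ h, conj (c g) * c h * Z g h).re}

omit [DecidableEq ι] in
theorem isCompact_gramSet : IsCompact (gramSet ι) := by
  refine IsCompact.of_isClosed_subset (isCompact_univ_pi fun _ : ι => isCompact_univ_pi
    fun _ : ι => isCompact_closedBall (0 : ℂ) 1) ?_ fun Z hZ g _ h _ =>
      mem_closedBall_zero_iff.2 (hZ.1 g h)
  simp only [gramSet, Set.ofPred_and, Set.ofPred_forall]
  refine (isClosed_iInter fun g => isClosed_iInter fun h => isClosed_le ?_ continuous_const).inter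
    ((isClosed_iInter fun g => isClosed_iInter fun h => isClosed_eq ?_ ?_).inter
      (isClosed_iInter fun c => isClosed_le continuous_const ?_))
  all_goals fun_prop

omit [DecidableEq ι] in
theorem posSemidef_of_mem {Z : ι → ι → ℂ} (hZ : Z ∈ gramSet ι) :
    (of Z : Matrix ι ι ℂ).PosSemidef := by
  refine posSemidef_iff_dotProduct_mulVec.2 ⟨Matrix.IsHermitian.ext fun g h => hZ.2.1 h g, fun c => ?_⟩
  have e : star c ⬝ᵥ (of Z) *ᵥ c = ∑ g, ∑ h, conj (c g) * c h * Z g h := by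
    simp only [dotProduct, mulVec, mul_sum]
    exact sum_congr rfl fun g _ => sum_congr rfl fun h _ => by
      simp [mul_comm, mul_assoc]
  rw [e, Complex.le_def]
  refine ⟨hZ.2.2 c, (Complex.conj_eq_iff_im.1 ?_).symm⟩
  rw [map_sum, sum_comm (s := univ) (t := univ) (f := fun g h => conj (c g) * c h * Z g h)]
  refine sum_congr rfl fun g _ => ?_
  rw [map_sum]
  refine sum_congr rfl fun h _ => ?_
  rw [map_mul, map_mul, Complex.conj_conj, hZ.2.1]
  ring

theorem continuous_coef (f : ℝ[X]) (w : ι → ℝ) :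
    Continuous fun K : Matrix ι ι ℂ => coef f w K := by
  show Continuous fun K : Matrix ι ι ℂ => rootW ℂ w * realEval f (rootW ℂ w * K * rootW ℂ w) * rootW ℂ w
  have h : Continuous fun Q : Matrix ι ι ℂ => realEval f Q :=
    (f.map Complex.ofRealHom).continuous_aeval
  exact (continuous_const.matrix_mul (h.comp ((continuous_const.matrix_mul continuous_id).matrix_mul
    continuous_const))).matrix_mul continuous_const

omit [Fintype ι] [DecidableEq ι] in
theorem continuous_kerMat (N : ℕ) (a : ℕ → ℝ) :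
    Continuous fun Z : ι → ι → ℂ => kerMat N a Z :=
  continuous_matrix fun g h => by
    show Continuous fun Z : ι → ι → ℂ => ∑ n ∈ Finset.range N, (a n : ℂ) • Z g h ^ (n + 1)
    fun_prop

omit [DecidableEq ι] in
theorem continuous_fF : Continuous fun p : Matrix ι ι ℂ × Matrix ι ι ℂ => fF p.1 p.2 := by
  unfold fF
  fun_prop

omit [DecidableEq ι] in
theorem norm_qProd (m : ℕ) (Z : ι → ι → ℂ) : ‖qProd m Z‖ = (∏ g, ‖Z g g‖) ^ m := by
  rw [qProd, List.norm_prod, ← prod_pow, ← prod_map_toList]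
  simp [List.map_map, Function.comp_def]

/-- Bounds on the whole cube. -/
theorem scalar_bounds {f : ℝ[X]} {N : ℕ} {a : ℕ → ℝ} {δ : ℝ} (hδ : 0 < δ) {w v : ι → ℝ}
    (hrow : ∀ Z : Matrix ι ι ℂ, Z.PosSemidef → (∀ g, Z g g = 1) →
      let K := kmat N a Z
      ‖form K (coef f w K) (coef f w K) - 1‖ ≤ δ ∧
        (form K (coef f w K - coef f v K) (coef f w K - coef f v K)).re ≤ ∑ g, |w g - v g| + δ)
    (ha : ∀ n, 0 ≤ a n) :
    ∃ m : ℕ, ∀ Z ∈ gramSet ι, ‖errOne f N a w m Z‖ ≤ 2 * δ ∧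
      ‖errDiff f N a w v m Z‖ ≤ ∑ g, |w g - v g| + 2 * δ := by
  set S := ∑ g, |w g - v g| with hS
  have hS0 : 0 ≤ S := sum_nonneg fun _ _ => abs_nonneg _
  set p : (ι → ι → ℂ) → ℝ := fun Z => ‖fF (kerMat N a Z) (coef f w (kerMat N a Z)) - 1‖ with hp
  set q : (ι → ι → ℂ) → ℝ := fun Z =>
    ‖fF (kerMat N a Z) (coef f w (kerMat N a Z) - coef f v (kerMat N a Z))‖ with hq
  have hck := continuous_kerMat (ι := ι) N a
  have hcp : Continuous p :=
    ((continuous_fF.comp (hck.prodMk ((continuous_coef f w).comp hck))).sub continuous_const).norm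
  have hcq : Continuous q :=
    (continuous_fF.comp (hck.prodMk
      (((continuous_coef f w).comp hck).sub ((continuous_coef f v).comp hck)))).norm
  set r : (ι → ι → ℂ) → ℝ := fun Z => ∏ g, ‖Z g g‖ with hr
  have hr01 : ∀ Z ∈ gramSet ι, 0 ≤ r Z ∧ r Z ≤ 1 := fun Z hZ =>
    ⟨prod_nonneg fun _ _ => norm_nonneg _, prod_le_one (fun _ _ => norm_nonneg _) fun g _ => hZ.1 g g⟩
  set bad := gramSet ι ∩ {Z | 2 * δ ≤ p Z ∨ S + 2 * δ ≤ q Z} with hbad
  have hbc : IsCompact bad :=
    isCompact_gramSet.inter_right ((isClosed_le continuous_const hcp).union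
      (isClosed_le continuous_const hcq))
  have hlt : ∀ Z ∈ bad, r Z < 1 := by
    rintro Z ⟨hZ, hbadZ⟩
    refine lt_of_le_of_ne (hr01 Z hZ).2 fun h1 => ?_
    have hd : ∀ g, (of Z : Matrix ι ι ℂ) g g = 1 := by
      intro g
      have h2 : ‖Z g g‖ = 1 := by
        refine le_antisymm (hZ.1 g g) ?_
        rw [← h1, hr]
        show ∏ i, ‖Z i i‖ ≤ _
        rw [← prod_erase_mul _ _ (mem_univ g)]
        exact mul_le_of_le_one_left (norm_nonneg _)
          (prod_le_one (fun _ _ => norm_nonneg _) fun i _ => hZ.1 i i)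
      have h3 := (posSemidef_of_mem hZ).diag_nonneg (i := g)
      rw [Complex.le_def, Complex.zero_re, Complex.zero_im] at h3
      have h4 : ((of Z : Matrix ι ι ℂ) g g) = (((Z g g).re : ℝ) : ℂ) :=
        Complex.ext rfl h3.2.symm
      rw [h4]
      rw [show Z g g = (((Z g g).re : ℝ) : ℂ) from h4, Complex.norm_real,
        Real.norm_of_nonneg (show (0 : ℝ) ≤ (Z g g).re from h3.1)] at h2
      rw [h2]; norm_num
    obtain ⟨e1, e2⟩ := hrow _ (posSemidef_of_mem hZ) hd
    obtain ⟨B, hB⟩ := exists_gram (kmat_posSemidef ha (posSemidef_of_mem hZ) (N := N))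
    rcases hbadZ with h | h
    · have : p Z ≤ δ := by
        show ‖fF (kerMat N a Z) (coef f w (kerMat N a Z)) - 1‖ ≤ δ
        rw [fF_complex]; exact e1
      linarith
    · have : q Z ≤ S + δ := by
        show ‖fF (kerMat N a (of Z)) (coef f w (kerMat N a (of Z)) - coef f v (kerMat N a (of Z)))‖ ≤ _
        rw [fF_complex, kerMat_complex]
        rw [hB, form_eq_frob] at e2 ⊢
        rw [Complex.norm_real, Real.norm_of_nonneg (frob_nonneg _)]
        rwa [Complex.ofReal_re] at e2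
      linarith
  obtain ⟨M, hM⟩ := (isCompact_gramSet (ι := ι)).bddAbove_image (hcp.add hcq).continuousOn
  obtain ⟨r₀, hr₀1, hr₀⟩ : ∃ r₀ : ℝ, r₀ < 1 ∧ ∀ Z ∈ bad, r Z ≤ r₀ := by
    rcases bad.eq_empty_or_nonempty with h | h
    · exact ⟨0, one_pos, fun Z hZ => by rw [h] at hZ; exact hZ.elim⟩
    · obtain ⟨Z₀, hZ₀, hmax⟩ := hbc.exists_isMaxOn h (f := r) (Continuous.continuousOn (by fun_prop))
      exact ⟨r Z₀, hlt Z₀ hZ₀, fun Z hZ => hmax hZ⟩
  obtain ⟨m, hm⟩ : ∃ m : ℕ, ∀ Z ∈ bad, (r Z ^ m) * M ≤ δ := by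
    obtain ⟨m, hm⟩ := exists_pow_lt_of_lt_one (div_pos hδ (add_pos_of_nonneg_of_pos (abs_nonneg M) one_pos))
      (max_lt hr₀1 one_pos : max r₀ 0 < 1)
    refine ⟨m, fun Z hZ => ?_⟩
    have h0 := (hr01 Z hZ.1).1
    calc r Z ^ m * M ≤ r Z ^ m * |M| := mul_le_mul_of_nonneg_left (le_abs_self M) (pow_nonneg h0 _)
      _ ≤ (δ / (|M| + 1)) * |M| := mul_le_mul_of_nonneg_right
          ((pow_le_pow_left₀ h0 ((hr₀ Z hZ).trans (le_max_left _ _)) m).trans hm.le) (abs_nonneg M)
      _ ≤ δ := by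
          rw [div_mul_eq_mul_div, div_le_iff₀ (by positivity)]
          exact mul_le_mul_of_nonneg_left (le_add_of_nonneg_right zero_le_one) hδ.le
  refine ⟨m, fun Z hZ => ?_⟩
  have h0 : 0 ≤ r Z ^ m := pow_nonneg (hr01 Z hZ).1 m
  have h1 : r Z ^ m ≤ 1 := pow_le_one₀ (hr01 Z hZ).1 (hr01 Z hZ).2
  have hMZ : p Z + q Z ≤ M := hM ⟨Z, hZ, rfl⟩
  have hp0 : 0 ≤ p Z := norm_nonneg _
  have hq0 : 0 ≤ q Z := norm_nonneg _
  rw [errOne, errDiff, norm_mul, norm_mul, norm_mul, norm_mul, norm_star, norm_qProd]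
  show r Z ^ m * p Z * r Z ^ m ≤ 2 * δ ∧ r Z ^ m * q Z * r Z ^ m ≤ S + 2 * δ
  have hp' : r Z ^ m * p Z * r Z ^ m ≤ r Z ^ m * p Z := mul_le_of_le_one_right (by positivity) h1
  have hq' : r Z ^ m * q Z * r Z ^ m ≤ r Z ^ m * q Z := mul_le_of_le_one_right (by positivity) h1
  by_cases hb : Z ∈ bad
  · have := hm Z hb
    constructor <;> nlinarith [mul_nonneg h0 hp0, mul_nonneg h0 hq0,
      mul_le_mul_of_nonneg_left hMZ h0]
  · rw [hbad, Set.mem_inter_iff, Set.mem_ofPred_eq, not_and, not_or, not_le, not_le] at hb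
    obtain ⟨h2, h3⟩ := hb hZ
    constructor <;> nlinarith [mul_le_mul_of_nonneg_right h1 hp0, mul_le_mul_of_nonneg_right h1 hq0]

end

end Vale.Agent.P095.All.RowMat
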