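import Vale.Agent.P095.All.RowMat.Coef

/-!
# P095 row element for amenable groups: the inequality of Powers and Størmer

With the square of the Frobenius norm `frob`, written for matrices given by a spectral decomposition.
-/

namespace Vale.Agent.P095.All.RowMat

open Matrix Finset Polynomial
open scoped ComplexConjugate ComplexOrder

noncomputable section

variable {ι : Type} [Fintype ι] [DecidableEq ι]

/-- The square of the Frobenius norm. -/
def frob (X : Matrix ι ι ℂ) : ℝ := ∑ i, ∑ j, ‖X i j‖ ^ 2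

omit [DecidableEq ι] in
theorem frob_nonneg (X : Matrix ι ι ℂ) : 0 ≤ frob X :=
  sum_nonneg fun _ _ => sum_nonneg fun _ _ => sq_nonneg _

omit [DecidableEq ι] in
theorem trace_star_mul_self (X : Matrix ι ι ℂ) : trace (Xᴴ * X) = (frob X : ℂ) := by
  simp only [trace, diag_apply, mul_apply, conjTranspose_apply, frob, Complex.ofReal_sum,
    Complex.ofReal_pow]
  rw [sum_comm]
  exact sum_congr rfl fun i _ => sum_congr rfl fun j _ => Complex.conj_mul' _

omit [DecidableEq ι] in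
theorem frob_add_le {t : ℝ} (ht : 0 < t) (X Y : Matrix ι ι ℂ) :
    frob (X + Y) ≤ (1 + t) * frob X + (1 + 1 / t) * frob Y := by
  simp only [frob, mul_sum, ← sum_add_distrib]
  refine sum_le_sum fun i _ => sum_le_sum fun j _ => ?_
  rw [Matrix.add_apply]
  refine (pow_le_pow_left₀ (norm_nonneg _) (norm_add_le (X i j) (Y i j)) 2).trans ?_
  have h := mul_nonneg (inv_nonneg.2 ht.le) (sq_nonneg (t * ‖X i j‖ - ‖Y i j‖))
  have e : t⁻¹ * (t * ‖X i j‖ - ‖Y i j‖) ^ 2
      = t * ‖X i j‖ ^ 2 - 2 * ‖X i j‖ * ‖Y i j‖ + 1 / t * ‖Y i j‖ ^ 2 := by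
    field_simp; ring
  rw [e] at h
  nlinarith [h]

/-- `U diag(g) U*`. -/
def conjDiag (U : Matrix.unitaryGroup ι ℂ) (g : ι → ℝ) : Matrix ι ι ℂ :=
  Unitary.conjStarAlgAut ℂ _ U (diagonal fun i => (g i : ℂ))

theorem conjDiag_eq (U : Matrix.unitaryGroup ι ℂ) (g : ι → ℝ) :
    conjDiag U g = (U : Matrix ι ι ℂ) * diagonal (fun i => (g i : ℂ)) * (U : Matrix ι ι ℂ)ᴴ := by
  rw [conjDiag, Unitary.conjStarAlgAut_apply]; rfl

theorem conjDiag_mul (U : Matrix.unitaryGroup ι ℂ) (g g' : ι → ℝ) :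
    conjDiag U g * conjDiag U g' = conjDiag U (g * g') := by
  rw [conjDiag, conjDiag, conjDiag, ← map_mul, diagonal_mul_diagonal]
  simp

theorem conjDiag_sub (U : Matrix.unitaryGroup ι ℂ) (g g' : ι → ℝ) :
    conjDiag U g - conjDiag U g' = conjDiag U (g - g') := by
  rw [conjDiag, conjDiag, conjDiag, ← map_sub, diagonal_sub]
  simp

theorem frob_conjDiag (U : Matrix.unitaryGroup ι ℂ) (g : ι → ℝ) :
    frob (conjDiag U g) = ∑ i, g i ^ 2 := by
  have h := trace_star_mul_self (conjDiag U g)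
  rw [← star_eq_conjTranspose, conjDiag, ← map_star, ← map_mul, Unitary.conjStarAlgAut_apply,
    trace_mul_cycle, Unitary.coe_star_mul_self, one_mul, star_eq_conjTranspose,
    diagonal_conjTranspose, diagonal_mul_diagonal, trace_diagonal] at h
  have e : ∀ i, star (fun j => (g j : ℂ)) i * (g i : ℂ) = ((g i ^ 2 : ℝ) : ℂ) := fun i => by
    simp [sq]
  rw [sum_congr rfl fun i _ => e i, ← Complex.ofReal_sum] at h
  exact_mod_cast h.symm

theorem realEval_conjDiag (U : Matrix.unitaryGroup ι ℂ) (f : ℝ[X]) (g : ι → ℝ) :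
    realEval f (conjDiag U g) = conjDiag U (fun i => f.eval (g i)) := by
  rw [realEval, conjDiag, conjDiag, aeval_algHom_apply]
  congr 1
  show aeval (diagonalAlgHom ℂ fun i => (g i : ℂ)) _ = _
  rw [aeval_algHom_apply, diagonalAlgHom_apply]
  congr 1
  funext i
  rw [aeval_pi_apply₂, aeval_def, Algebra.algebraMap_self, eval₂_map]
  exact (eval₂_at_apply Complex.ofRealHom (g i)).trans rfl

theorem conjDiag_posSemidef (U : Matrix.unitaryGroup ι ℂ) {g : ι → ℝ} (hg : ∀ i, 0 ≤ g i) :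
    (conjDiag U g).PosSemidef := by
  rw [conjDiag_eq]
  exact (Matrix.PosSemidef.diagonal fun i => by simpa using hg i).mul_mul_conjTranspose_same _

theorem exists_conjDiag {P : Matrix ι ι ℂ} (hP : P.PosSemidef) :
    ∃ (U : Matrix.unitaryGroup ι ℂ) (g : ι → ℝ), (∀ i, 0 ≤ g i) ∧ P = conjDiag U g ∧
      trace P = ((∑ i, g i : ℝ) : ℂ) :=
  ⟨hP.1.eigenvectorUnitary, hP.1.eigenvalues, hP.eigenvalues_nonneg,
    hP.1.spectral_theorem.trans rfl,
    hP.1.trace_eq_sum_eigenvalues.trans (Complex.ofReal_sum _ _).symm⟩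

/-- A positive matrix is a Gram matrix. -/
theorem exists_gram {K : Matrix ι ι ℂ} (hK : K.PosSemidef) :
    ∃ B : Matrix ι ι ℂ, K = Bᴴ * B := by
  obtain ⟨U, g, hg, rfl, -⟩ := exists_conjDiag hK
  refine ⟨diagonal (fun i => ((Real.sqrt (g i) : ℝ) : ℂ)) * (U : Matrix ι ι ℂ)ᴴ, ?_⟩
  rw [conjTranspose_mul, conjTranspose_conjTranspose, diagonal_conjTranspose, conjDiag_eq,
    Matrix.mul_assoc, Matrix.mul_assoc, ← Matrix.mul_assoc (diagonal _) (diagonal _),
    diagonal_mul_diagonal]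
  congr 2
  ext i
  congr 1
  funext i
  simp [← Complex.ofReal_mul, Real.mul_self_sqrt (hg i)]

/-- Powers and Størmer, the trace norm being bounded by the weights and the diagonal of `Bᴴ B`. -/
theorem frob_sub_le {R S B : Matrix ι ι ℂ} (hR : R.PosSemidef) (hS : S.PosSemidef) (v : ι → ℝ)
    (hdiag : ∀ g, (Bᴴ * B) g g = 1) (hv : R * R - S * S = B * diagonal (fun g => (v g : ℂ)) * Bᴴ) :
    frob (R - S) ≤ ∑ g, |v g| := by
  set U := (hR.1.sub hS.1).eigenvectorUnitary with hU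
  set μ := (hR.1.sub hS.1).eigenvalues with hμ
  have hX : R - S = conjDiag U μ := (hR.1.sub hS.1).spectral_theorem.trans rfl
  rw [hX, frob_conjDiag]
  set V : Matrix ι ι ℂ := (U : Matrix ι ι ℂ) with hV
  have hVV : Vᴴ * V = 1 := Unitary.coe_star_mul_self U
  have hVV' : V * Vᴴ = 1 := Unitary.coe_mul_star_self U
  set D : Matrix ι ι ℂ := diagonal (fun i => (μ i : ℂ)) with hD
  have hD' : R - S = V * D * Vᴴ := hX.trans (conjDiag_eq U μ)
  set R' := Vᴴ * R * V with hR'
  set S' := Vᴴ * S * V with hS'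
  have hRS : R' - S' = D := by
    rw [hR', hS', ← Matrix.sub_mul, ← Matrix.mul_sub, hD', ← Matrix.mul_assoc, ← Matrix.mul_assoc,
      hVV, Matrix.one_mul, Matrix.mul_assoc, hVV, Matrix.mul_one]
  have hR2 : ∀ A : Matrix ι ι ℂ, Vᴴ * (A * A) * V = (Vᴴ * A * V) * (Vᴴ * A * V) := fun A => by
    simp only [Matrix.mul_assoc]
    rw [← Matrix.mul_assoc V Vᴴ, hVV', Matrix.one_mul]
  have key : D * R' + S' * D = (Vᴴ * B) * diagonal (fun g => (v g : ℂ)) * (Vᴴ * B)ᴴ := by
    rw [conjTranspose_mul, conjTranspose_conjTranspose]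
    calc D * R' + S' * D = R' * R' - S' * S' := by rw [← hRS]; noncomm_ring
      _ = Vᴴ * (R * R - S * S) * V := by rw [Matrix.mul_sub, Matrix.sub_mul, hR2, hR2]
      _ = _ := by rw [hv]; simp only [Matrix.mul_assoc]
  have hrow : ∀ g, ∑ i, ‖(Vᴴ * B) i g‖ ^ 2 = 1 := by
    intro g
    have h : ((Vᴴ * B)ᴴ * (Vᴴ * B)) g g = 1 := by
      rw [conjTranspose_mul, conjTranspose_conjTranspose, Matrix.mul_assoc,
        ← Matrix.mul_assoc V Vᴴ, hVV', Matrix.one_mul, hdiag]
    rw [mul_apply] at h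
    have e : ∀ i, (Vᴴ * B)ᴴ g i * (Vᴴ * B) i g = ((‖(Vᴴ * B) i g‖ ^ 2 : ℝ) : ℂ) := fun i => by
      rw [conjTranspose_apply, Complex.ofReal_pow]; exact Complex.conj_mul' _
    rw [sum_congr rfl fun i _ => e i, ← Complex.ofReal_sum] at h
    exact_mod_cast h
  have hterm : ∀ i, μ i ^ 2 ≤ ∑ g, |v g| * ‖(Vᴴ * B) i g‖ ^ 2 := by
    intro i
    have hr : 0 ≤ R' i i := (hR.conjTranspose_mul_mul_same V).diag_nonneg
    have hs : 0 ≤ S' i i := (hS.conjTranspose_mul_mul_same V).diag_nonneg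
    rw [Complex.le_def, Complex.zero_re, Complex.zero_im] at hr hs
    have h1 : (μ i : ℂ) = R' i i - S' i i := by
      rw [← Matrix.sub_apply, hRS, hD, diagonal_apply_eq]
    have h2 := congr_fun (congr_fun key i) i
    rw [Matrix.add_apply, hD, diagonal_mul, mul_diagonal, mul_apply] at h2
    simp only [mul_diagonal, conjTranspose_apply] at h2
    have e : ∀ g, (Vᴴ * B) i g * (v g : ℂ) * star ((Vᴴ * B) i g)
        = ((v g * ‖(Vᴴ * B) i g‖ ^ 2 : ℝ) : ℂ) := fun g => by
      rw [mul_comm ((Vᴴ * B) i g), mul_assoc, Complex.ofReal_mul, Complex.ofReal_pow]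
      exact congrArg _ (Complex.mul_conj' _)
    rw [sum_congr rfl fun g _ => e g, ← Complex.ofReal_sum] at h2
    replace h1 := congrArg Complex.re h1
    replace h2 := congrArg Complex.re h2
    simp only [Complex.ofReal_re, Complex.sub_re, Complex.add_re, Complex.mul_re,
      Complex.ofReal_im, ← hr.2, ← hs.2, mul_zero, sub_zero] at h1 h2
    set r := (R' i i).re
    set s := (S' i i).re
    calc μ i ^ 2 ≤ |μ i * (r + s)| := by
          rw [abs_mul, ← sq_abs, sq, abs_of_nonneg (add_nonneg hr.1 hs.1)]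
          refine mul_le_mul_of_nonneg_left ?_ (abs_nonneg _)
          rw [abs_le]; constructor <;> linarith [hr.1, hs.1]
      _ = |∑ g, v g * ‖(Vᴴ * B) i g‖ ^ 2| := by rw [← h2]; congr 1; ring
      _ ≤ _ := (abs_sum_le_sum_abs _ _).trans (sum_le_sum fun g _ => by
          rw [abs_mul, abs_of_nonneg (sq_nonneg ‖_‖)])
  refine (sum_le_sum fun i _ => hterm i).trans_eq ?_
  rw [sum_comm]
  exact sum_congr rfl fun g _ => by rw [← mul_sum, hrow g, mul_one]

end

end Vale.Agent.P095.All.RowMat
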